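import Vale.Agent.P141.H622.InstF
import Vale.Agent.P141.H331.SkelTZ

/-!
# P141, line (A), gap part: leaf `MkT ZMass`

`mkT_ZMass` : the mass of the flow slot of the cut families on every tile, constant `CD = e`.
-/

namespace Vale.Agent.P141.H622

open Finset Matrix Vale.Agent.P141.PL
open Vale.Agent.P141.H401 (PartQ PartY)
open Vale.Agent.P141.H331 (MkT ZMass lsz)

noncomputable section

open scoped Classical

/-- **Leaf `ZMass`** of the skeleton of the gap part. -/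
theorem mkT_ZMass : MkT ZMass := by
  intro a ha ha1
  refine ⟨1, one_pos, fun e0 _ _ => ⟨1, one_pos, fun k8 _ _ => ⟨1, one_pos, fun k3 _ _ =>
    ⟨1, 1, 1, 1, one_pos, one_pos, one_pos, one_pos, fun c hc _ d hd _ Kt e cP L _ he _ _ =>
      ⟨e, he, 0, le_rfl, ?_⟩⟩⟩⟩⟩
  intro t ht ht1 n ez F1 F2 F3 _ _ _ o ho K hKn x ι _ _ s r U g u v hs hr hcls Q1 Q2 Q3 _ _ q3 _
    L' e' he' hm t0 _
  have h1 := hw_cut (p := ⟨a, e0, k8, k3, c, d, Kt, e, cP, L, e, t⟩) he' hm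
    (H401.Num.al ⟨a, e0, k8, k3, c, d, Kt, e, cP, L, e, t⟩ U K) o t0 ht hs hr
    (by show 0 ≤ e; linarith) hcls.toCls q3 hKn
  refine h1.trans ?_
  have h2 : (1 : ℝ) ≤ lsz ⟨a, e0, k8, k3, c, d, Kt, e, cP, L, e, t⟩ :=
    Real.one_le_rpow_of_pos_of_le_one_of_nonpos ht ht1 (by show -(8 * (c + d)) ≤ 0; nlinarith)
  have h3 : e * s ≤ e * (lsz ⟨a, e0, k8, k3, c, d, Kt, e, cP, L, e, t⟩ * s) := by
    have : 1 * s ≤ lsz ⟨a, e0, k8, k3, c, d, Kt, e, cP, L, e, t⟩ * s :=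
      mul_le_mul_of_nonneg_right h2 hs.le
    exact mul_le_mul_of_nonneg_left (by linarith) (by linarith)
  show 4 ^ L' * 8 ^ K * e * s ≤
    4 ^ L' * (e * (lsz ⟨a, e0, k8, k3, c, d, Kt, e, cP, L, e, t⟩ * s * 8 ^ K))
  calc 4 ^ L' * 8 ^ K * e * s = 4 ^ L' * 8 ^ K * (e * s) := by ring
    _ ≤ 4 ^ L' * 8 ^ K * (e * (lsz ⟨a, e0, k8, k3, c, d, Kt, e, cP, L, e, t⟩ * s)) :=
        mul_le_mul_of_nonneg_left h3 (by positivity)
    _ = _ := by ring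

end

end Vale.Agent.P141.H622
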