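import Vale.Agent.P141.H834.CntP
import Vale.Agent.P141.H115g.WGb

/-!
# P141, line W: the fixed row test for the weight `W_g`, all heights

`UnifG δ A B C G`: `δ`-uniformity on the box with the density `pG` of `W_g`.

`core_G`: let `G` be `δ`-uniform, `b (x, y)` real with column energies at most `P y` and row energies
at most `R`, `s (y)` real, `F (y, z)` with line averages at most `e`, and `K (x, z)` arbitrary.  Then
`|E G b s F K| ≤ δ (65536 e³ q² r R g³)^(1/6)` with `q = E s² P`, `r = E s²`, `g = E K²`.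

The cut is in the levels of `s (y)²` and, at the same time, in the levels of `E_y s² F²`.
-/

namespace Vale.Agent.P141.H622

noncomputable section

open scoped BigOperators
open Finset Vale.Agent.P141.PL.H315 Vale.Agent.P141.H315 Vale.Agent.P141.H550
open Vale.Agent.P141.H922 (n2 n2_nonneg n2_sq)
open Vale.Agent.P141.H238 (pG v2 v2_nonneg)

/-- `δ`-uniformity on a box, with the density of `W_g` -/
def UnifG (δ : ℝ) (A B C : Finset ℤ) (G : ℤ × ℤ × ℤ → ℝ) : Prop :=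
  ∀ u : Tri, |avg (A ×ˢ B ×ˢ C) (fun q => G q * atm u q)| ≤ δ * pG (A ×ˢ B ×ˢ C) u

/-- the density of `W_g` as one sixth root -/
theorem pG_six (Q : Finset (ℤ × ℤ × ℤ)) (u : Tri) : pG Q u =
    (n2 Q (e12 u.1) ^ 2 * n2 Q (e13 u.2.1) ^ 2 * n2 Q (e23 u.2.2) ^ 2 *
      (v2 Q (e12 u.1) (e13 u.2.1) * v2 Q (e12 u.1) (e23 u.2.2) *
        v2 Q (e13 u.2.1) (e23 u.2.2))) ^ (1 / 6 : ℝ) := by
  have h1 := n2_nonneg Q (e12 u.1)
  have h2 := n2_nonneg Q (e13 u.2.1)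
  have h3 := n2_nonneg Q (e23 u.2.2)
  have h4 := v2_nonneg Q (e12 u.1) (e13 u.2.1)
  have h5 := v2_nonneg Q (e12 u.1) (e23 u.2.2)
  have h6 := v2_nonneg Q (e13 u.2.1) (e23 u.2.2)
  have e1 : n2 Q (e12 u.1) ^ 2 * n2 Q (e13 u.2.1) ^ 2 * n2 Q (e23 u.2.2) ^ 2 =
      (n2 Q (e12 u.1) * n2 Q (e13 u.2.1) * n2 Q (e23 u.2.2)) ^ (2 : ℕ) := by ring
  have hx : 0 ≤ n2 Q (e12 u.1) * n2 Q (e13 u.2.1) * n2 Q (e23 u.2.2) := by positivity
  have e2 : ((n2 Q (e12 u.1) * n2 Q (e13 u.2.1) * n2 Q (e23 u.2.2)) ^ (2 : ℕ)) ^ (1 / 6 : ℝ) =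
      (n2 Q (e12 u.1) * n2 Q (e13 u.2.1) * n2 Q (e23 u.2.2)) ^ (1 / 3 : ℝ) := by
    rw [← Real.rpow_natCast, ← Real.rpow_mul hx]
    congr 1
    norm_num
  rw [e1, Real.mul_rpow (by positivity) (by positivity), e2]
  rfl

/-- Hoelder with six exponents -/
theorem sum_six {ι : Type*} (S : Finset ι) (f : Fin 6 → ι → ℝ)
    (hf : ∀ i, ∀ x ∈ S, 0 ≤ f i x) :
    ∑ x ∈ S, (∏ i, f i x) ^ (1 / 6 : ℝ) ≤ (∏ i, ∑ x ∈ S, f i x) ^ (1 / 6 : ℝ) := by
  rcases S.eq_empty_or_nonempty with rfl | hS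
  · simp
  have hc : (0 : ℝ) < S.card := by exact_mod_cast hS.card_pos
  have h := H115g.avg_prod_rpow_le S (fun _ : Fin 6 => (1 / 6 : ℝ)) (fun _ => by norm_num)
    (by simp) f hf
  have e1 : avg S (fun x => ∏ i, f i x ^ (1 / 6 : ℝ)) =
      (S.card : ℝ)⁻¹ * ∑ x ∈ S, (∏ i, f i x) ^ (1 / 6 : ℝ) := by
    unfold avg
    congr 1
    refine sum_congr rfl fun x hx => ?_
    exact Real.finsetProd_rpow univ (fun i => f i x) (fun i _ => hf i x hx) (1 / 6)
  have hs : ∀ i, 0 ≤ ∑ x ∈ S, f i x := fun i => sum_nonneg fun x hx => hf i x hx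
  have e2 : (∏ i, avg S (f i) ^ (1 / 6 : ℝ)) =
      (S.card : ℝ)⁻¹ * (∏ i, ∑ x ∈ S, f i x) ^ (1 / 6 : ℝ) := by
    have e4 : (∏ i, avg S (f i) ^ (1 / 6 : ℝ)) = (∏ i, avg S (f i)) ^ (1 / 6 : ℝ) :=
      Real.finsetProd_rpow univ (fun i => avg S (f i))
        (fun i _ => mul_nonneg (inv_nonneg.2 hc.le) (hs i)) (1 / 6)
    rw [e4]
    have e3 : (∏ i : Fin 6, avg S (f i)) = ((S.card : ℝ)⁻¹) ^ (6 : ℕ) * ∏ i, ∑ x ∈ S, f i x := by
      unfold avg
      rw [prod_mul_distrib]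
      simp
    rw [e3, Real.mul_rpow (by positivity) (prod_nonneg fun i _ => hs i)]
    congr 1
    rw [← Real.rpow_natCast, ← Real.rpow_mul (by positivity)]
    norm_num
  rw [e1, e2] at h
  exact le_of_mul_le_mul_left h (inv_pos.2 hc)

/-- geometric sums over a finite set of integers -/
theorem sum_half_le (T : Finset ℤ) (k : ℤ) : ∑ K ∈ T, (1 / 2 : ℝ) ^ (k - K).natAbs ≤ 4 := by
  classical
  have key : ∀ T' : Finset ℤ, Set.InjOn (fun K : ℤ => (k - K).natAbs) T' →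
      ∑ K ∈ T', (1 / 2 : ℝ) ^ (k - K).natAbs ≤ 2 := by
    intro T' hi
    have e1 : ∑ K ∈ T', (1 / 2 : ℝ) ^ (k - K).natAbs =
        ∑ n ∈ T'.image (fun K : ℤ => (k - K).natAbs), (1 / 2 : ℝ) ^ n := by
      rw [sum_image hi]
    obtain ⟨N, hN⟩ : ∃ N, T'.image (fun K : ℤ => (k - K).natAbs) ⊆ range N := by
      refine ⟨(T'.image (fun K : ℤ => (k - K).natAbs)).sup id + 1, fun n hn => ?_⟩
      rw [mem_range, Nat.lt_succ_iff]
      exact le_sup (f := id) hn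
    rw [e1]
    refine (sum_le_sum_of_subset_of_nonneg hN fun _ _ _ => by positivity).trans ?_
    exact sum_geometric_two_le N
  have h1 : ∑ K ∈ T, (1 / 2 : ℝ) ^ (k - K).natAbs =
      ∑ K ∈ T.filter (fun K => k ≤ K), (1 / 2 : ℝ) ^ (k - K).natAbs +
        ∑ K ∈ T.filter (fun K => ¬ k ≤ K), (1 / 2 : ℝ) ^ (k - K).natAbs :=
    (sum_filter_add_sum_filter_not _ _ _).symm
  rw [h1]
  have h2 := key (T.filter (fun K => k ≤ K)) (by
    intro a ha b hb hab
    simp only [coe_filter, Set.mem_ofPred_eq] at ha hb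
    simp only at hab
    omega)
  have h3 := key (T.filter (fun K => ¬ k ≤ K)) (by
    intro a ha b hb hab
    simp only [coe_filter, Set.mem_ofPred_eq] at ha hb
    simp only at hab
    omega)
  linarith

/-! ### levels -/

/-- the indicator of the level `k` of `h` -/
def ci (h : ℤ → ℝ) (k : ℤ) (y : ℤ) : ℝ := if h y ≠ 0 ∧ Int.log 16 (h y) = k then 1 else 0

theorem ci_nonneg (h : ℤ → ℝ) (k y : ℤ) : 0 ≤ ci h k y := by
  unfold ci; split_ifs <;> norm_num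

theorem ci_le_one (h : ℤ → ℝ) (k y : ℤ) : ci h k y ≤ 1 := by
  unfold ci; split_ifs <;> norm_num

theorem ci_sq (h : ℤ → ℝ) (k y : ℤ) : ci h k y ^ 2 = ci h k y := by
  unfold ci; split_ifs <;> norm_num

theorem ci_lower {h : ℤ → ℝ} {y : ℤ} (hy : 0 ≤ h y) (k : ℤ) :
    ci h k y * (16 : ℝ) ^ k ≤ ci h k y * h y := by
  unfold ci
  split_ifs with h1
  · have h2 : 0 < h y := lt_of_le_of_ne hy (Ne.symm h1.1)
    have h3 := Int.zpow_log_le_self (b := 16) (by norm_num) h2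
    rw [h1.2] at h3
    simpa using h3
  · simp

theorem ci_upper {h : ℤ → ℝ} (y k : ℤ) :
    ci h k y * h y ≤ ci h k y * (16 * (16 : ℝ) ^ k) := by
  unfold ci
  split_ifs with h1
  · have h3 := (Int.lt_zpow_succ_log_self (b := 16) (by norm_num) (h y)).le
    rw [h1.2, zpow_add_one₀ (by norm_num)] at h3
    simp only [one_mul]
    push_cast at h3
    linarith
  · simp

/-- the set of levels -/
def lvs (h : ℤ → ℝ) (B : Finset ℤ) : Finset ℤ := B.image fun y => Int.log 16 (h y)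

theorem sum_ci {h : ℤ → ℝ} {B : Finset ℤ} {y : ℤ} (hy : y ∈ B) :
    ∑ k ∈ lvs h B, ci h k y = if h y = 0 then 0 else 1 := by
  classical
  by_cases h0 : h y = 0
  · rw [if_pos h0]
    refine sum_eq_zero fun k _ => ?_
    unfold ci
    rw [if_neg (fun h1 => h1.1 h0)]
  · rw [if_neg h0]
    unfold lvs
    rw [sum_eq_single_of_mem (Int.log 16 (h y)) (mem_image_of_mem (fun y => Int.log 16 (h y)) hy)]
    · unfold ci
      rw [if_pos ⟨h0, rfl⟩]
    · intro k _ hk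
      unfold ci
      rw [if_neg (fun h1 => hk h1.2.symm)]

theorem sum_ci_le {h : ℤ → ℝ} {B : Finset ℤ} {y : ℤ} (hy : y ∈ B) :
    ∑ k ∈ lvs h B, ci h k y ≤ 1 := by
  rw [sum_ci hy]
  split_ifs <;> norm_num

/-- summation over the levels of an average -/
theorem sum_avg_ci_le {h : ℤ → ℝ} {B : Finset ℤ} {t : ℤ → ℝ} (ht : ∀ y ∈ B, 0 ≤ t y) :
    ∑ k ∈ lvs h B, avg B (fun y => ci h k y * t y) ≤ avg B t := by
  rw [← avg_sum]
  refine avg_mono fun y hy => ?_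
  rw [← sum_mul]
  have := mul_le_mul_of_nonneg_right (sum_ci_le (h := h) hy) (ht y hy)
  linarith

end

end Vale.Agent.P141.H622
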