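import Vale.Agent.P141.H622.CoreG

/-!
# P141, line W: the six averages of the fixed row test
-/

namespace Vale.Agent.P141.H622

noncomputable section

open scoped BigOperators
open Finset Vale.Agent.P141.PL.H315 Vale.Agent.P141.H315 Vale.Agent.P141.H550
open Vale.Agent.P141.H922 (n2 n2_nonneg n2_sq)
open Vale.Agent.P141.H238 (pG v2 v2_nonneg)

section

variable (A B C : Finset ℤ) (s : ℤ → ℝ) (F K : ℤ → ℤ → ℝ) (e : ℝ) (P : ℤ → ℝ)

/-- the energy of the row at the level `k`, weighted by the columns -/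
def qk (k : ℤ) : ℝ := avg B fun y => ci (fun y => s y ^ 2) k y * (s y ^ 2 * P y)

/-- the energy of the kernel at the level `l` of the lines -/
def gl (l : ℤ) : ℝ := avg C fun z => ci (fun z => HH B s F z / e) l z * avg A fun x => K x z ^ 2

/-- the energy of the lines of level `l` -/
def bl (l : ℤ) : ℝ := avg C fun z => ci (fun z => HH B s F z / e) l z * HH B s F z

/-- the joint energy -/
def qkl (k l : ℤ) : ℝ := avg B fun y => ci (fun y => s y ^ 2) k y * (s y ^ 2 * P y *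
  avg C fun z => ci (fun z => HH B s F z / e) l z * F y z ^ 2)

end

variable {A B C : Finset ℤ} {s : ℤ → ℝ} {F K b : ℤ → ℤ → ℝ} {e : ℝ} {P : ℤ → ℝ}

theorem qk_nonneg (hP0 : ∀ y ∈ B, 0 ≤ P y) (k : ℤ) : 0 ≤ qk B s P k :=
  avg_nonneg fun y hy => mul_nonneg (ci_nonneg _ _ _) (mul_nonneg (sq_nonneg _) (hP0 y hy))

theorem gl_nonneg (l : ℤ) : 0 ≤ gl A B C s F K e l :=
  avg_nonneg fun _ _ => mul_nonneg (ci_nonneg _ _ _) (avg_nonneg fun _ _ => sq_nonneg _)

theorem bl_nonneg (l : ℤ) : 0 ≤ bl B C s F e l :=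
  avg_nonneg fun _ _ => mul_nonneg (ci_nonneg _ _ _) (HH_nonneg _)

theorem qkl_nonneg (hP0 : ∀ y ∈ B, 0 ≤ P y) (k l : ℤ) : 0 ≤ qkl B C s F e P k l :=
  avg_nonneg fun y hy => mul_nonneg (ci_nonneg _ _ _) (mul_nonneg (mul_nonneg (sq_nonneg _)
    (hP0 y hy)) (avg_nonneg fun _ _ => mul_nonneg (ci_nonneg _ _ _) (sq_nonneg _)))

/-! ### the sums over the levels -/

theorem sum_qk_le (hP0 : ∀ y ∈ B, 0 ≤ P y) :
    ∑ k ∈ lvs (fun y => s y ^ 2) B, qk B s P k ≤ avg B fun y => s y ^ 2 * P y :=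
  sum_avg_ci_le fun y hy => mul_nonneg (sq_nonneg _) (hP0 y hy)

theorem sum_gl_le : ∑ l ∈ lvs (fun z => HH B s F z / e) C, gl A B C s F K e l ≤
    avg C fun z => avg A fun x => K x z ^ 2 :=
  sum_avg_ci_le fun _ _ => avg_nonneg fun _ _ => sq_nonneg _

theorem sum_bl_le (hF2 : ∀ y ∈ B, avg C (fun z => F y z ^ 2) ≤ e) :
    ∑ l ∈ lvs (fun z => HH B s F z / e) C, bl B C s F e l ≤ e * avg B fun y => s y ^ 2 := by
  refine (sum_avg_ci_le fun _ _ => HH_nonneg _).trans ?_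
  unfold HH
  rw [avg_comm, ← avg_mul_left]
  refine avg_mono fun y hy => ?_
  rw [avg_mul_left, mul_comm e]
  exact mul_le_mul_of_nonneg_left (hF2 y hy) (sq_nonneg _)

theorem sum_qkl_le (hP0 : ∀ y ∈ B, 0 ≤ P y)
    (hF2 : ∀ y ∈ B, avg C (fun z => F y z ^ 2) ≤ e) :
    ∑ p ∈ lvs (fun y => s y ^ 2) B ×ˢ lvs (fun z => HH B s F z / e) C,
      qkl B C s F e P p.1 p.2 ≤ e * avg B fun y => s y ^ 2 * P y := by
  rw [sum_product, sum_comm]
  have h1 : ∀ l ∈ lvs (fun z => HH B s F z / e) C,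
      ∑ k ∈ lvs (fun y => s y ^ 2) B, qkl B C s F e P k l ≤
        avg B fun y => s y ^ 2 * P y *
          avg C fun z => ci (fun z => HH B s F z / e) l z * F y z ^ 2 := fun l _ =>
    sum_avg_ci_le fun y hy => mul_nonneg (mul_nonneg (sq_nonneg _) (hP0 y hy))
      (avg_nonneg fun _ _ => mul_nonneg (ci_nonneg _ _ _) (sq_nonneg _))
  refine (sum_le_sum h1).trans ?_
  rw [← avg_sum, ← avg_mul_left]
  refine avg_mono fun y hy => ?_
  rw [← mul_sum, mul_comm e]
  refine mul_le_mul_of_nonneg_left ?_ (mul_nonneg (sq_nonneg _) (hP0 y hy))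
  exact (sum_avg_ci_le fun _ _ => sq_nonneg _).trans (hF2 y hy)

/-! ### the six averages -/

theorem avg3' (A B C : Finset ℤ) (f : ℤ → ℤ → ℤ → ℝ) {g : ℤ × ℤ × ℤ → ℝ}
    (h : ∀ x y z, g (x, y, z) = f x y z) : avg (A ×ˢ B ×ˢ C) g =
      avg A fun x => avg B fun y => avg C fun z => f x y z := by
  rw [← avg3]
  exact avg_congr fun q _ => h q.1 q.2.1 q.2.2

theorem av12 (hP : ∀ y ∈ B, avg A (fun x => b x y ^ 2) ≤ P y) (k l : ℤ) :
    n2 (A ×ˢ B ×ˢ C) (e12 (tst B s F K b e k l).1) ^ 2 ≤ ((16 : ℝ) ^ k)⁻¹ * qk B s P k := by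
  rw [n2_sq, avg3' A B C (fun x y _ => b x y ^ 2 * ci (fun y => s y ^ 2) k y) (by
    intro x y z
    unfold e12 tst
    simp only
    rw [mul_pow, ci_sq])]
  unfold qk
  rw [avg_comm A B, ← avg_mul_left]
  refine avg_mono fun y hy => ?_
  have h1 : (avg A fun x => avg C fun _ => b x y ^ 2 * ci (fun y => s y ^ 2) k y) ≤
      ci (fun y => s y ^ 2) k y * P y := by
    refine (avg_mono fun x _ => avg_const_le C (mul_nonneg (sq_nonneg _)
      (ci_nonneg _ _ _))).trans ?_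
    have h2 : (avg A fun x => b x y ^ 2 * ci (fun y => s y ^ 2) k y) =
        ci (fun y => s y ^ 2) k y * avg A fun x => b x y ^ 2 := by
      rw [← avg_mul_left]
      exact avg_congr fun x _ => mul_comm _ _
    rw [h2]
    exact mul_le_mul_of_nonneg_left (hP y hy) (ci_nonneg _ _ _)
  refine h1.trans ?_
  have hP0 : 0 ≤ P y := (avg_nonneg fun _ _ => sq_nonneg _).trans (hP y hy)
  have h3 := ci_lower (h := fun y => s y ^ 2) (y := y) (sq_nonneg _) k
  have h4 : (0 : ℝ) < (16 : ℝ) ^ k := by positivity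
  rw [inv_mul_eq_div, le_div_iff₀ h4]
  calc ci (fun y => s y ^ 2) k y * P y * 16 ^ k =
      (ci (fun y => s y ^ 2) k y * 16 ^ k) * P y := by ring
    _ ≤ (ci (fun y => s y ^ 2) k y * s y ^ 2) * P y := mul_le_mul_of_nonneg_right h3 hP0
    _ = _ := by ring

theorem av13 (k l : ℤ) :
    n2 (A ×ˢ B ×ˢ C) (e13 (tst B s F K b e k l).2.1) ^ 2 ≤ gl A B C s F K e l := by
  rw [n2_sq, avg3' A B C (fun x _ z => K x z ^ 2 * ci (fun z => HH B s F z / e) l z) (by
    intro x y z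
    unfold e13 tst
    simp only
    rw [mul_pow, ci_sq])]
  unfold gl
  have h1 : (avg A fun x => avg B fun _ => avg C fun z =>
      K x z ^ 2 * ci (fun z => HH B s F z / e) l z) ≤
      avg A fun x => avg C fun z => K x z ^ 2 * ci (fun z => HH B s F z / e) l z :=
    avg_mono fun x _ => avg_const_le B (avg_nonneg fun _ _ =>
      mul_nonneg (sq_nonneg _) (ci_nonneg _ _ _))
  refine h1.trans (le_of_eq ?_)
  rw [avg_comm]
  refine avg_congr fun z _ => ?_
  rw [← avg_mul_left]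
  exact avg_congr fun x _ => mul_comm _ _

/-- the average of the third edge, before the bounds -/
theorem av23 (k l : ℤ) :
    n2 (A ×ˢ B ×ˢ C) (e23 (tst B s F K b e k l).2.2) ^ 2 ≤
      avg C fun z => ci (fun z => HH B s F z / e) l z *
        avg B fun y => ci (fun y => s y ^ 2) k y * (s y ^ 2 * F y z ^ 2) := by
  rw [n2_sq, avg3' A B C (fun _ y z => s y ^ 2 * F y z ^ 2 * (ci (fun y => s y ^ 2) k y *
      ci (fun z => HH B s F z / e) l z)) (by
    intro x y z
    unfold e23 tst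
    simp only
    rw [mul_pow, mul_pow, mul_pow, ci_sq, ci_sq])]
  refine (avg_const_le A (avg_nonneg fun _ _ => avg_nonneg fun _ _ => mul_nonneg
    (mul_nonneg (sq_nonneg _) (sq_nonneg _)) (mul_nonneg (ci_nonneg _ _ _)
      (ci_nonneg _ _ _)))).trans (le_of_eq ?_)
  rw [avg_comm]
  refine avg_congr fun z _ => ?_
  rw [← avg_mul_left]
  exact avg_congr fun y _ => by ring

theorem av23_a (k l : ℤ) :
    n2 (A ×ˢ B ×ˢ C) (e23 (tst B s F K b e k l).2.2) ^ 2 ≤ bl B C s F e l := by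
  refine (av23 k l).trans ?_
  refine avg_mono fun z _ => mul_le_mul_of_nonneg_left ?_ (ci_nonneg _ _ _)
  refine avg_mono fun y _ => ?_
  have h1 : 0 ≤ s y ^ 2 * F y z ^ 2 := mul_nonneg (sq_nonneg _) (sq_nonneg _)
  calc _ ≤ 1 * (s y ^ 2 * F y z ^ 2) := mul_le_mul_of_nonneg_right (ci_le_one _ _ _) h1
    _ = _ := one_mul _

/-- the energy of a line at the level `k` -/
theorem line_k (hF1 : ∀ z ∈ C, avg B (fun y => F y z ^ 2) ≤ e) (k : ℤ) {z : ℤ} (hz : z ∈ C) :
    (avg B fun y => ci (fun y => s y ^ 2) k y * (s y ^ 2 * F y z ^ 2)) ≤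
      16 * (16 : ℝ) ^ k * e := by
  have h1 : ∀ y ∈ B, ci (fun y => s y ^ 2) k y * (s y ^ 2 * F y z ^ 2) ≤
      16 * (16 : ℝ) ^ k * F y z ^ 2 := by
    intro y _
    have h2 := ci_upper (h := fun y => s y ^ 2) y k
    have h3 := ci_le_one (fun y => s y ^ 2) k y
    calc _ = (ci (fun y => s y ^ 2) k y * s y ^ 2) * F y z ^ 2 := by ring
      _ ≤ (ci (fun y => s y ^ 2) k y * (16 * (16 : ℝ) ^ k)) * F y z ^ 2 :=
          mul_le_mul_of_nonneg_right h2 (sq_nonneg _)
      _ ≤ (1 * (16 * (16 : ℝ) ^ k)) * F y z ^ 2 := by gcongr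
      _ = _ := by ring
  refine (avg_mono h1).trans ?_
  rw [avg_mul_left]
  exact mul_le_mul_of_nonneg_left (hF1 z hz) (by positivity)

theorem av23_b (he : 0 < e) (hF1 : ∀ z ∈ C, avg B (fun y => F y z ^ 2) ≤ e) (k l : ℤ) :
    n2 (A ×ˢ B ×ˢ C) (e23 (tst B s F K b e k l).2.2) ^ 2 ≤
      16 * (16 : ℝ) ^ k * ((16 : ℝ) ^ l)⁻¹ * bl B C s F e l := by
  refine (av23 k l).trans ?_
  unfold bl
  rw [← avg_mul_left]
  refine avg_mono fun z hz => ?_
  have h1 := mul_le_mul_of_nonneg_left (line_k (s := s) hF1 k hz)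
    (ci_nonneg (fun z => HH B s F z / e) l z)
  refine h1.trans ?_
  have h2 := ci_lower (h := fun z => HH B s F z / e) (y := z)
    (div_nonneg (HH_nonneg _) he.le) l
  have h3 : (0 : ℝ) < (16 : ℝ) ^ l := by positivity
  have h4 : ci (fun z => HH B s F z / e) l z * e ≤
      ((16 : ℝ) ^ l)⁻¹ * (ci (fun z => HH B s F z / e) l z * HH B s F z) := by
    rw [inv_mul_eq_div, le_div_iff₀ h3]
    calc _ = (ci (fun z => HH B s F z / e) l z * 16 ^ l) * e := by ring
      _ ≤ (ci (fun z => HH B s F z / e) l z * (HH B s F z / e)) * e :=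
          mul_le_mul_of_nonneg_right h2 he.le
      _ = _ := by field_simp
  calc _ = 16 * (16 : ℝ) ^ k * (ci (fun z => HH B s F z / e) l z * e) := by ring
    _ ≤ 16 * (16 : ℝ) ^ k * (((16 : ℝ) ^ l)⁻¹ *
        (ci (fun z => HH B s F z / e) l z * HH B s F z)) :=
        mul_le_mul_of_nonneg_left h4 (by positivity)
    _ = _ := by ring

/-- the vertex average at the slice variable, before the bounds -/
theorem av_z (k l : ℤ) :
    v2 (A ×ˢ B ×ˢ C) (e13 (tst B s F K b e k l).2.1) (e23 (tst B s F K b e k l).2.2) =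
      avg C fun z => ci (fun z => HH B s F z / e) l z * (avg A fun x => K x z ^ 2) *
        avg B fun y => ci (fun y => s y ^ 2) k y * (s y ^ 2 * F y z ^ 2) := by
  unfold v2
  rw [avg3' A B C (fun x y z => ci (fun z => HH B s F z / e) l z * K x z ^ 2 *
      (ci (fun y => s y ^ 2) k y * (s y ^ 2 * F y z ^ 2))) (by
    intro x y z
    unfold e13 e23 tst
    simp only
    have h1 := ci_sq (fun y => s y ^ 2) k y
    have h2 := ci_sq (fun z => HH B s F z / e) l z
    calc _ = (ci (fun z => HH B s F z / e) l z ^ 2) ^ 2 * K x z ^ 2 *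
        (ci (fun y => s y ^ 2) k y ^ 2 * (s y ^ 2 * F y z ^ 2)) := by ring
      _ = _ := by rw [h1, h2, h2])]
  rw [avg_congr fun x _ => avg_comm B C _, avg_comm A C]
  refine avg_congr fun z _ => ?_
  rw [avg_congr fun x _ => avg_mul_left B _ _, avg_mul_right, avg_mul_left]

theorem av_z_k (hF1 : ∀ z ∈ C, avg B (fun y => F y z ^ 2) ≤ e) (k l : ℤ) :
    v2 (A ×ˢ B ×ˢ C) (e13 (tst B s F K b e k l).2.1) (e23 (tst B s F K b e k l).2.2) ≤
      16 * (16 : ℝ) ^ k * e * gl A B C s F K e l := by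
  rw [av_z]
  unfold gl
  rw [← avg_mul_left]
  refine avg_mono fun z hz => ?_
  have h1 : 0 ≤ ci (fun z => HH B s F z / e) l z * avg A fun x => K x z ^ 2 :=
    mul_nonneg (ci_nonneg _ _ _) (avg_nonneg fun _ _ => sq_nonneg _)
  have h2 := mul_le_mul_of_nonneg_left (line_k (s := s) hF1 k hz) h1
  refine h2.trans (le_of_eq (by ring))

theorem av_z_l (he : 0 < e) (k l : ℤ) :
    v2 (A ×ˢ B ×ˢ C) (e13 (tst B s F K b e k l).2.1) (e23 (tst B s F K b e k l).2.2) ≤
      16 * (16 : ℝ) ^ l * e * gl A B C s F K e l := by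
  rw [av_z]
  unfold gl
  rw [← avg_mul_left]
  refine avg_mono fun z hz => ?_
  have h0 : 0 ≤ avg A fun x => K x z ^ 2 := avg_nonneg fun _ _ => sq_nonneg _
  have h1 : 0 ≤ ci (fun z => HH B s F z / e) l z * avg A fun x => K x z ^ 2 :=
    mul_nonneg (ci_nonneg _ _ _) h0
  have h2 : (avg B fun y => ci (fun y => s y ^ 2) k y * (s y ^ 2 * F y z ^ 2)) ≤
      HH B s F z := by
    refine avg_mono fun y _ => ?_
    have h1 : 0 ≤ s y ^ 2 * F y z ^ 2 := mul_nonneg (sq_nonneg _) (sq_nonneg _)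
    calc _ ≤ 1 * (s y ^ 2 * F y z ^ 2) := mul_le_mul_of_nonneg_right (ci_le_one _ _ _) h1
      _ = _ := one_mul _
  refine (mul_le_mul_of_nonneg_left h2 h1).trans ?_
  have h3 := ci_upper (h := fun z => HH B s F z / e) z l
  have h4 : ci (fun z => HH B s F z / e) l z * HH B s F z ≤
      ci (fun z => HH B s F z / e) l z * (16 * (16 : ℝ) ^ l) * e := by
    calc _ = (ci (fun z => HH B s F z / e) l z * (HH B s F z / e)) * e := by field_simp
      _ ≤ _ := mul_le_mul_of_nonneg_right h3 he.le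
  calc _ = (ci (fun z => HH B s F z / e) l z * HH B s F z) * avg A fun x => K x z ^ 2 := by ring
    _ ≤ (ci (fun z => HH B s F z / e) l z * (16 * (16 : ℝ) ^ l) * e) *
        avg A fun x => K x z ^ 2 := mul_le_mul_of_nonneg_right h4 h0
    _ = _ := by ring

theorem av_y (hP : ∀ y ∈ B, avg A (fun x => b x y ^ 2) ≤ P y) (k l : ℤ) :
    v2 (A ×ˢ B ×ˢ C) (e12 (tst B s F K b e k l).1) (e23 (tst B s F K b e k l).2.2) ≤
      qkl B C s F e P k l := by
  unfold v2
  rw [avg3' A B C (fun x y z => b x y ^ 2 * (ci (fun y => s y ^ 2) k y * s y ^ 2 *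
      (ci (fun z => HH B s F z / e) l z * F y z ^ 2))) (by
    intro x y z
    unfold e12 e23 tst
    simp only
    have h1 := ci_sq (fun y => s y ^ 2) k y
    have h2 := ci_sq (fun z => HH B s F z / e) l z
    calc _ = b x y ^ 2 * ((ci (fun y => s y ^ 2) k y ^ 2) ^ 2 * s y ^ 2 *
        (ci (fun z => HH B s F z / e) l z ^ 2 * F y z ^ 2)) := by ring
      _ = _ := by rw [h1, h2, h1])]
  rw [avg_comm A B]
  refine avg_mono fun y hy => ?_
  have h1 : (avg A fun x => avg C fun z => b x y ^ 2 * (ci (fun y => s y ^ 2) k y * s y ^ 2 *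
      (ci (fun z => HH B s F z / e) l z * F y z ^ 2))) =
      (ci (fun y => s y ^ 2) k y * s y ^ 2 *
        avg C fun z => ci (fun z => HH B s F z / e) l z * F y z ^ 2) *
          avg A fun x => b x y ^ 2 := by
    rw [← avg_mul_left]
    refine avg_congr fun x _ => ?_
    rw [avg_mul_left, avg_mul_left]
    ring
  rw [h1]
  refine (mul_le_mul_of_nonneg_left (hP y hy) (mul_nonneg (mul_nonneg (ci_nonneg _ _ _)
    (sq_nonneg _)) (avg_nonneg fun _ _ => mul_nonneg (ci_nonneg _ _ _)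
      (sq_nonneg _)))).trans (le_of_eq (by ring))

theorem sum_av_x {R : ℝ} (hR : ∀ x ∈ A, avg B (fun y => b x y ^ 2) ≤ R) :
    ∑ p ∈ lvs (fun y => s y ^ 2) B ×ˢ lvs (fun z => HH B s F z / e) C,
      v2 (A ×ˢ B ×ˢ C) (e12 (tst B s F K b e p.1 p.2).1) (e13 (tst B s F K b e p.1 p.2).2.1) ≤
      R * avg C fun z => avg A fun x => K x z ^ 2 := by
  have h1 : ∀ k l : ℤ, v2 (A ×ˢ B ×ˢ C) (e12 (tst B s F K b e k l).1)
      (e13 (tst B s F K b e k l).2.1) =
      avg A fun x => (avg B fun y => ci (fun y => s y ^ 2) k y * b x y ^ 2) *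
        avg C fun z => ci (fun z => HH B s F z / e) l z * K x z ^ 2 := by
    intro k l
    unfold v2
    rw [avg3' A B C (fun x y z => (ci (fun y => s y ^ 2) k y * b x y ^ 2) *
      (ci (fun z => HH B s F z / e) l z * K x z ^ 2)) (by
      intro x y z
      unfold e12 e13 tst
      simp only
      have h1 := ci_sq (fun y => s y ^ 2) k y
      have h2 := ci_sq (fun z => HH B s F z / e) l z
      calc _ = (ci (fun y => s y ^ 2) k y ^ 2 * b x y ^ 2) *
          (ci (fun z => HH B s F z / e) l z ^ 2 * K x z ^ 2) := by ring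
        _ = _ := by rw [h1, h2])]
    refine avg_congr fun x _ => ?_
    rw [← avg_mul_right]
    exact avg_congr fun y _ => avg_mul_left _ _ _
  rw [sum_product]
  simp only [h1]
  rw [sum_congr rfl fun k _ => (avg_sum A (lvs (fun z => HH B s F z / e) C) _).symm, ← avg_sum,
    avg_comm C A, ← avg_mul_left]
  refine avg_mono fun x hx => ?_
  rw [← sum_mul_sum]
  refine mul_le_mul ((sum_avg_ci_le fun _ _ => sq_nonneg _).trans (hR x hx))
    (sum_avg_ci_le fun _ _ => sq_nonneg _)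
    (sum_nonneg fun l _ => avg_nonneg fun _ _ => mul_nonneg (ci_nonneg _ _ _) (sq_nonneg _))
    ((avg_nonneg fun _ _ => sq_nonneg _).trans (hR x hx))

end

end Vale.Agent.P141.H622
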