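import Vale.Agent.P141.H622.Core

/-!
# P141, line W: the fixed row test for the weight `W_g`, all heights (the test)
-/

namespace Vale.Agent.P141.H622

noncomputable section

open scoped BigOperators
open Finset Vale.Agent.P141.PL.H315 Vale.Agent.P141.H315 Vale.Agent.P141.H550
open Vale.Agent.P141.H922 (n2 n2_nonneg n2_sq)
open Vale.Agent.P141.H238 (pG v2 v2_nonneg)

variable {A B C : Finset ℤ}

/-- the average over the box -/
theorem avg3 (A B C : Finset ℤ) (f : ℤ → ℤ → ℤ → ℝ) :
    avg (A ×ˢ B ×ˢ C) (fun q => f q.1 q.2.1 q.2.2) =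
      avg A fun x => avg B fun y => avg C fun z => f x y z := by
  rw [avg_prod]
  exact avg_congr fun x _ => avg_prod _ _ _

/-- an average of a constant is at most the constant -/
theorem avg_const_le (Q : Finset ℤ) {c : ℝ} (hc : 0 ≤ c) : avg Q (fun _ => c) ≤ c := by
  rcases Q.eq_empty_or_nonempty with rfl | hQ
  · simpa [avg] using hc
  · exact (avg_const hQ c).le

/-- an average of terms at most `c` is at most `c` -/
theorem avg_le_of {Q : Finset ℤ} {f : ℤ → ℝ} {c : ℝ} (hc : 0 ≤ c) (h : ∀ x ∈ Q, f x ≤ c) :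
    avg Q f ≤ c := (avg_mono h).trans (avg_const_le Q hc)

/-- an average of nonnegative terms vanishes only if all terms vanish -/
theorem eq_zero_of_avg {Q : Finset ℤ} {f : ℤ → ℝ} (hf : ∀ x ∈ Q, 0 ≤ f x) (h : avg Q f = 0)
    {x : ℤ} (hx : x ∈ Q) : f x = 0 := by
  have hc : (0 : ℝ) < Q.card := by exact_mod_cast card_pos.2 ⟨x, hx⟩
  unfold avg at h
  have h1 : ∑ x ∈ Q, f x = 0 := by
    rcases mul_eq_zero.1 h with h2 | h2
    · exact absurd h2 (inv_ne_zero hc.ne')
    · exact h2
  exact (sum_eq_zero_iff_of_nonneg hf).1 h1 x hx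

section

variable (s : ℤ → ℝ) (F K b : ℤ → ℤ → ℝ) (e : ℝ) (B C)

/-- the energy of the line `z` -/
def HH (z : ℤ) : ℝ := avg B fun y => s y ^ 2 * F y z ^ 2

/-- the test of the pair of levels `k`, `l` -/
def tst (k l : ℤ) : Tri :=
  (fun r => b r.1 r.2 * ci (fun y => s y ^ 2) k r.2,
    fun r => K r.1 r.2 * ci (fun z => HH B s F z / e) l r.2,
    fun r => s r.1 * F r.1 r.2 * (ci (fun y => s y ^ 2) k r.1 *
      ci (fun z => HH B s F z / e) l r.2))

end

variable {s : ℤ → ℝ} {F K b : ℤ → ℤ → ℝ} {e : ℝ}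

theorem HH_nonneg (z : ℤ) : 0 ≤ HH B s F z :=
  avg_nonneg fun _ _ => mul_nonneg (sq_nonneg _) (sq_nonneg _)

/-- the sum of the tests -/
theorem sum_tst (he : 0 < e) (G : ℤ × ℤ × ℤ → ℝ) :
    (avg A fun x => avg B fun y => avg C fun z => G (x, y, z) * (b x y * (s y * F y z) * K x z)) =
      ∑ p ∈ lvs (fun y => s y ^ 2) B ×ˢ lvs (fun z => HH B s F z / e) C,
        avg (A ×ˢ B ×ˢ C) (fun q => G q * atm (tst B s F K b e p.1 p.2) q) := by
  rw [← avg_sum, ← avg3 A B C fun x y z => G (x, y, z) * (b x y * (s y * F y z) * K x z)]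
  refine avg_congr fun q hq => ?_
  obtain ⟨x, y, z⟩ := q
  simp only [mem_product] at hq
  obtain ⟨-, hy, hz⟩ := hq
  have e1 : ∀ p : ℤ × ℤ, G (x, y, z) * atm (tst B s F K b e p.1 p.2) (x, y, z) =
      G (x, y, z) * (b x y * (s y * F y z) * K x z) *
        (ci (fun y => s y ^ 2) p.1 y * ci (fun z => HH B s F z / e) p.2 z) := by
    intro p
    unfold atm tst e12 e13 e23
    simp only
    have h1 := ci_sq (fun y => s y ^ 2) p.1 y
    have h2 := ci_sq (fun z => HH B s F z / e) p.2 z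
    calc _ = G (x, y, z) * (b x y * (s y * F y z) * K x z) *
        (ci (fun y => s y ^ 2) p.1 y ^ 2 * ci (fun z => HH B s F z / e) p.2 z ^ 2) := by ring
      _ = _ := by rw [h1, h2]
  have e2 : ∑ p ∈ lvs (fun y => s y ^ 2) B ×ˢ lvs (fun z => HH B s F z / e) C,
      ci (fun y => s y ^ 2) p.1 y * ci (fun z => HH B s F z / e) p.2 z =
      (∑ k ∈ lvs (fun y => s y ^ 2) B, ci (fun y => s y ^ 2) k y) *
        ∑ l ∈ lvs (fun z => HH B s F z / e) C, ci (fun z => HH B s F z / e) l z := by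
    rw [sum_product, sum_mul_sum]
  rw [sum_congr rfl fun p _ => e1 p, ← mul_sum, e2,
    sum_ci (h := fun y => s y ^ 2) hy, sum_ci (h := fun z => HH B s F z / e) hz]
  simp only
  by_cases h1 : s y ^ 2 = 0
  · have h2 : s y = 0 := by simpa using h1
    simp [h2]
  · rw [if_neg h1]
    by_cases h3 : HH B s F z / e = 0
    · have h4 : HH B s F z = 0 := by
        rcases div_eq_zero_iff.1 h3 with h | h
        · exact h
        · exact absurd h he.ne'
      have h5 := eq_zero_of_avg (Q := B) (fun y _ => mul_nonneg (sq_nonneg (s y))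
        (sq_nonneg (F y z))) h4 hy
      have h6 : s y * F y z = 0 := by
        have : (s y * F y z) ^ 2 = 0 := by rw [mul_pow]; exact h5
        exact pow_eq_zero_iff (two_ne_zero) |>.1 this
      rw [h6]
      simp
    · rw [if_neg h3]
      ring

end

end Vale.Agent.P141.H622
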