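import Vale.Agent.P141.H633.FlowV
import Vale.Agent.P141.H576.GlueW

/-!
# P141, line (A), gap part: the mass of the flow block

The flow block of a node is `hd * Bᵀ`, `B` the labelled block of `Sf l K Kp Km *ᵥ b`, where `b`
has at most the Gram matrix (in the middle variable) of `g • u` on the middle cell and `g` has
line energies in the fourth variable.

* `tree_drop_raw` : the drops of `2 √l tr K` on the tree, raw form;
* `cell_mass` : mass of `Sf u` on a cell, by the drop;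
* `row_dom` : a matrix passes through the domination of the Gram matrices;
* `flow_mass` : the sum over the points of the fourth variable, scales and nodes;
* `tr_YF`, `flowW` : the same in trace form (hypothesis `hw` of `H609.tzX_lab`), letters of
  `H633.flowV`.
-/

namespace Vale.Agent.P141.H622

open Finset Matrix Vale.Agent.P075 Vale.Agent.P141.PL Vale.Agent.P141.PL.H588
open Vale.Agent.P141.PL.H804 Vale.Agent.P141.H958 Vale.Agent.P141.H338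
open Vale.Agent.P141.PL.H315 (avg)
open Vale.Agent.P141.H633 (Sf nv nv_nonneg SfK FB YF)
open Vale.Agent.P141.H420 (Tr Nd tsum)

noncomputable section

open scoped Classical

variable {κ : Type*} [Fintype κ] [DecidableEq κ]

/-- the drop of `2 √l tr K` at a cell -/
def dr (l : ℝ) (K : ℕ → ℤ → Matrix κ κ ℝ) (k : ℕ) (n : ℤ) : ℝ :=
  2 * √l * ((K k n).trace - (Nd.Kb (K (k - 1) (2 * n)) (K (k - 1) (2 * n + 1))).trace)

/-- the drops on the tree, raw form -/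
theorem tree_drop_raw {l : ℝ} {N : ℕ} {G K : ℕ → ℤ → Matrix κ κ ℝ} (h : Tr l N G K) (R : ℤ) :
    ∑ j ∈ Icc 1 N, (2 : ℝ) ^ j * ∑ n ∈ iv (N - j) R, dr l K j n ≤ 2 ^ N * (G N R).trace := by
  have h1 := H633.tree_drop h le_rfl R
  rw [H420.tsum_eq] at h1
  have h2 := mul_le_mul_of_nonneg_left h1 (show (0 : ℝ) ≤ 2 ^ N by positivity)
  refine le_trans (le_of_eq ?_) h2
  rw [Finset.mul_sum]
  refine Finset.sum_congr rfl fun j hj => ?_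
  have hj2 := (Finset.mem_Icc.1 hj).2
  have e1 : (2 : ℝ) ^ N * ((2 : ℝ) ^ (N - j))⁻¹ = 2 ^ j := by
    have e0 : (2 : ℝ) ^ N = 2 ^ j * 2 ^ (N - j) := by rw [← pow_add, Nat.add_sub_cancel' hj2]
    rw [e0]
    field_simp
  rw [← mul_assoc, e1]
  rfl

/-- mass of `Sf u` on a cell -/
theorem cell_mass {l : ℝ} {N : ℕ} {G K : ℤ → ℕ → ℤ → Matrix κ κ ℝ} {x : ℤ}
    (h : Tr l N (G x) (K x)) {u : ℤ → κ → ℝ} {k : ℕ} (hk : k ∈ Icc 1 N) (n : ℤ)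
    (hG : G x k n = ((2 : ℝ) ^ k)⁻¹ • ∑ y ∈ iv k n, vecMulVec (u y) (u y)) :
    ∑ y ∈ iv k n, nv (SfK l K k n x *ᵥ u y) ≤ 2 ^ k * dr l (K x) k n := by
  obtain ⟨j, rfl⟩ : ∃ j, k = j + 1 := ⟨k - 1, by have := (mem_Icc.1 hk).1; omega⟩
  have hnd := h.nd (k := j) (by have := (mem_Icc.1 hk).2; omega) n
  have h1 := H633.mass2_avg hnd (iv (j + 1) n) ((2 : ℝ) ^ (j + 1))⁻¹ u hG
  have h2 : 0 ≤ l * (Sf l (K x (j + 1) n) (K x j (2 * n)) (K x j (2 * n + 1)) *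
      (Sf l (K x (j + 1) n) (K x j (2 * n)) (K x j (2 * n + 1)))ᵀ).trace := by
    refine mul_nonneg h.l_pos.le ?_
    unfold Matrix.trace
    refine Finset.sum_nonneg fun i _ => ?_
    rw [diag_apply, mul_apply]
    exact Finset.sum_nonneg fun k _ => by rw [transpose_apply]; exact mul_self_nonneg _
  have h3 : ((2 : ℝ) ^ (j + 1))⁻¹ * ∑ y ∈ iv (j + 1) n, nv (SfK l K (j + 1) n x *ᵥ u y) ≤
      dr l (K x) (j + 1) n := by
    unfold SfK dr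
    simp only [Nat.add_sub_cancel]
    linarith
  have h4 : (0 : ℝ) < 2 ^ (j + 1) := by positivity
  rwa [inv_mul_le_iff₀ h4] at h3

omit [DecidableEq κ] in
/-- a matrix passes through the domination of the Gram matrices -/
theorem row_dom {Y : Finset ℤ} {b u : ℤ → κ → ℝ} {g : ℤ → ℝ}
    (h : ∀ w : κ → ℝ, ∑ y ∈ Y, (w ⬝ᵥ b y) ^ 2 ≤ ∑ y ∈ Y, g y ^ 2 * (w ⬝ᵥ u y) ^ 2)
    (M : Matrix κ κ ℝ) :
    ∑ y ∈ Y, nv (M *ᵥ b y) ≤ ∑ y ∈ Y, g y ^ 2 * nv (M *ᵥ u y) := by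
  unfold nv
  simp only [mul_sum]
  rw [sum_comm, sum_comm (s := Y)]
  exact sum_le_sum fun i _ => h (M i)

omit [Fintype κ] [DecidableEq κ] in
/-- the nodes of a plane, by the middle and the last cell -/
theorem sum_nodes_le {N : ℕ} {R : Pt} {k : ℕ} {c : ℤ} {s : Finset Pt} (hs : s ⊆ bx3 N R k c)
    {f : ℤ → ℤ → ℝ} (hf : ∀ n n', 0 ≤ f n n') :
    ∑ m ∈ s, f m.2.1 m.2.2 ≤ ∑ n ∈ iv (N - k) R.2.1, ∑ n' ∈ iv (N - k) R.2.2, f n n' := by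
  have h1 : ∑ m ∈ s, f m.2.1 m.2.2 ≤ ∑ m ∈ bx3 N R k c, f m.2.1 m.2.2 :=
    sum_le_sum_of_subset_of_nonneg hs fun m _ _ => hf _ _
  refine h1.trans ?_
  rw [← sum_product']
  refine le_trans (le_of_eq (sum_image (f := fun q : ℤ × ℤ => f q.1 q.2)
    (g := fun m : Pt => (m.2.1, m.2.2)) ?_).symm) ?_
  · intro m hm m' hm' he
    unfold bx3 at hm hm'
    rw [mem_coe, mem_filter] at hm hm'
    have e1 : m.2.1 = m'.2.1 := congrArg Prod.fst he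
    have e2 : m.2.2 = m'.2.2 := congrArg Prod.snd he
    have e3 : m.1 = m'.1 := by have := hm.2; have := hm'.2; omega
    exact Prod.ext e3 (Prod.ext e1 e2)
  · refine sum_le_sum_of_subset_of_nonneg ?_ fun q _ _ => hf _ _
    intro q hq
    rw [mem_image] at hq
    obtain ⟨m, hm, rfl⟩ := hq
    unfold bx3 at hm
    rw [mem_filter, mem_product, mem_product] at hm
    exact mem_product.2 ⟨hm.1.2.1, hm.1.2.2⟩

variable {N : ℕ} {R : Pt} {X : Finset ℤ} {c : ℤ → ℕ → ℤ} {s : ℤ → ℕ → Finset Pt} {l e₀ : ℝ}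
  {G K : ℤ → ℕ → ℤ → Matrix κ κ ℝ} {u : ℤ → ℤ → κ → ℝ} {g : ℤ → ℕ → ℤ → ℤ → ℝ}
  {b : ℤ → ℕ → ℤ → ℤ → κ → ℝ}

/-- **The mass of the flow slot**: `b i k y x` (`i` the fourth variable, `y` middle, `x` last) is
dominated on the middle cells of the nodes by `g i k x y • u x y`. -/
theorem flow_mass (he : 0 ≤ e₀) (hT : ∀ x, Tr l N (G x) (K x))
    (hG : ∀ x ∈ iv N R.2.2, ∀ k ∈ Icc 1 N, ∀ q ∈ iv (N - k) R.2.1,
      G x k q = ((2 : ℝ) ^ k)⁻¹ • ∑ y ∈ iv k q, vecMulVec (u x y) (u x y))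
    (hs : ∀ i ∈ X, ∀ k ∈ Icc 1 N, s i k ⊆ bx3 N R k (c i k))
    (hb : ∀ i ∈ X, ∀ k ∈ Icc 1 N, ∀ m ∈ s i k, ∀ x ∈ iv k m.2.2, ∀ w : κ → ℝ,
      ∑ y ∈ iv k m.2.1, (w ⬝ᵥ b i k y x) ^ 2 ≤
        ∑ y ∈ iv k m.2.1, g i k x y ^ 2 * (w ⬝ᵥ u x y) ^ 2)
    (hg : ∀ k ∈ Icc 1 N, ∀ x y, ∑ i ∈ X, g i k x y ^ 2 ≤ e₀ * 2 ^ N) :
    ∑ i ∈ X, ∑ k ∈ Icc 1 N, ∑ m ∈ s i k, ∑ y ∈ iv k m.2.1, ∑ x ∈ iv k m.2.2,
        nv (SfK l K k m.2.1 x *ᵥ b i k y x) ≤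
      e₀ * 2 ^ N * ∑ x ∈ iv N R.2.2, 2 ^ N * (G x N R.2.1).trace := by
  -- one point, one scale
  have h1 : ∀ i ∈ X, ∀ k ∈ Icc 1 N, (∑ m ∈ s i k, ∑ y ∈ iv k m.2.1, ∑ x ∈ iv k m.2.2,
      nv (SfK l K k m.2.1 x *ᵥ b i k y x)) ≤
      ∑ n ∈ iv (N - k) R.2.1, ∑ n' ∈ iv (N - k) R.2.2, ∑ x ∈ iv k n', ∑ y ∈ iv k n,
        g i k x y ^ 2 * nv (SfK l K k n x *ᵥ u x y) := by
    intro i hi k hk
    refine le_trans (sum_le_sum fun m hm => ?_) (sum_nodes_le (hs i hi k hk)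
      (f := fun n n' => ∑ x ∈ iv k n', ∑ y ∈ iv k n,
        g i k x y ^ 2 * nv (SfK l K k n x *ᵥ u x y)) fun n n' =>
      sum_nonneg fun x _ => sum_nonneg fun y _ => mul_nonneg (sq_nonneg _) (nv_nonneg _))
    rw [sum_comm]
    exact sum_le_sum fun x hx => row_dom (hb i hi k hk m hm x hx) _
  -- the sum over the points
  have h2 : ∀ k ∈ Icc 1 N, (∑ i ∈ X, ∑ n ∈ iv (N - k) R.2.1, ∑ n' ∈ iv (N - k) R.2.2,
      ∑ x ∈ iv k n', ∑ y ∈ iv k n, g i k x y ^ 2 * nv (SfK l K k n x *ᵥ u x y)) ≤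
      ∑ n ∈ iv (N - k) R.2.1, ∑ n' ∈ iv (N - k) R.2.2, ∑ x ∈ iv k n',
        e₀ * 2 ^ N * (2 ^ k * dr l (K x) k n) := by
    intro k hk
    rw [sum_comm]
    refine sum_le_sum fun n hn => ?_
    rw [sum_comm]
    refine sum_le_sum fun n' hn' => ?_
    rw [sum_comm]
    refine sum_le_sum fun x hx => ?_
    rw [sum_comm]
    have hxN : x ∈ iv N R.2.2 := by
      rw [mem_iv] at hn' hx ⊢
      rw [show N = k + (N - k) by have := (mem_Icc.1 hk).2; omega, ← ix_ix, hx, hn']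
    calc ∑ y ∈ iv k n, ∑ i ∈ X, g i k x y ^ 2 * nv (SfK l K k n x *ᵥ u x y)
        ≤ ∑ y ∈ iv k n, e₀ * 2 ^ N * nv (SfK l K k n x *ᵥ u x y) := by
          refine sum_le_sum fun y _ => ?_
          rw [← sum_mul]
          exact mul_le_mul_of_nonneg_right (hg k hk x y) (nv_nonneg _)
      _ ≤ _ := by
          rw [← mul_sum]
          exact mul_le_mul_of_nonneg_left (cell_mass (hT x) hk n (hG x hxN k hk n hn))
            (by positivity)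
  refine (sum_le_sum fun i hi => sum_le_sum fun k hk => h1 i hi k hk).trans ?_
  rw [sum_comm]
  refine (sum_le_sum fun k hk => h2 k hk).trans ?_
  have h3 : ∀ k ∈ Icc 1 N, (∑ n ∈ iv (N - k) R.2.1, ∑ n' ∈ iv (N - k) R.2.2, ∑ x ∈ iv k n',
        e₀ * 2 ^ N * (2 ^ k * dr l (K x) k n)) =
      ∑ x ∈ iv N R.2.2, e₀ * 2 ^ N * (2 ^ k * ∑ n ∈ iv (N - k) R.2.1, dr l (K x) k n) := by
    intro k hk
    have e1 : ∀ n ∈ iv (N - k) R.2.1, (∑ n' ∈ iv (N - k) R.2.2, ∑ x ∈ iv k n',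
        e₀ * 2 ^ N * (2 ^ k * dr l (K x) k n)) =
        ∑ x ∈ iv N R.2.2, e₀ * 2 ^ N * (2 ^ k * dr l (K x) k n) := fun n _ =>
      H633.sum_cells (mem_Icc.1 hk).2 R.2.2 fun x => e₀ * 2 ^ N * (2 ^ k * dr l (K x) k n)
    rw [sum_congr rfl e1, sum_comm]
    refine sum_congr rfl fun x _ => ?_
    rw [mul_sum, mul_sum]
  rw [sum_congr rfl h3, sum_comm, mul_sum]
  refine sum_le_sum fun x _ => ?_
  rw [← mul_sum]
  exact mul_le_mul_of_nonneg_left (tree_drop_raw (hT x) R.2.1) (by positivity)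

/-- the mass of the flow block -/
theorem tr_YF {L : ℕ} {e : κ → ℤ} (he : Function.Injective e) (hm : ∀ i, e i ∈ lbs L)
    (b : ℕ → ℤ → ℤ → κ → ℝ) (k : ℕ) (m : Pt) :
    (YF L l e K b (k + L) m * (YF L l e K b (k + L) m)ᵀ).trace =
      4 ^ L * ∑ y ∈ iv k m.2.1, ∑ x ∈ iv k m.2.2, nv (SfK l K k m.2.1 x *ᵥ b k y x) := by
  have h1 : (YF L l e K b (k + L) m * (YF L l e K b (k + L) m)ᵀ).trace =
      ((bl (k + L) (encR L (FB l e K (b k) k m.2.1)) m.2.1 m.2.2)ᵀ *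
        bl (k + L) (encR L (FB l e K (b k) k m.2.1)) m.2.1 m.2.2).trace := by
    unfold YF
    rw [Nat.add_sub_cancel]
    set B := bl (k + L) (encR L (FB l e K (b k) k m.2.1)) m.2.1 m.2.2 with hB
    rw [transpose_mul, transpose_transpose, hd_symm, Matrix.mul_assoc, trace_mul_comm,
      Matrix.mul_assoc, Matrix.mul_assoc, hd_sq, Matrix.mul_one]
  rw [h1, H576.tr_bl]
  simp only [encR_apply]
  have h2 : ∀ a : ℝ, √(2 ^ L) * a * (√(2 ^ L) * a) = 2 ^ L * a ^ 2 := fun a => by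
    have h : √(2 ^ L : ℝ) * √(2 ^ L) = 2 ^ L := Real.mul_self_sqrt (by positivity)
    calc √(2 ^ L) * a * (√(2 ^ L) * a) = (√(2 ^ L) * √(2 ^ L)) * a ^ 2 := by ring
      _ = _ := by rw [h]
  simp only [h2]
  rw [H576.sum_fine L k m.2.1 m.2.2 fun lab y x => 2 ^ L * FB l e K (b k) k m.2.1 lab y x ^ 2]
  simp only [← mul_sum]
  rw [← mul_assoc, ← mul_pow]
  norm_num only
  congr 1
  refine sum_congr rfl fun y _ => sum_congr rfl fun x _ => ?_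
  unfold FB nv
  have h3 := sum_cu_cu he hm (SfK l K k m.2.1 x *ᵥ b k y x) (SfK l K k m.2.1 x *ᵥ b k y x)
  simp only [← pow_two] at h3
  exact h3

/-- **The mass of the flow block**, hypothesis `hw` of `H609.tzX_lab`, letters of `H633.flowV`:
`b` is dominated at fixed `x` on the middle cells of the nodes, `g` has line energies at the
nodes. -/
theorem flowW {L : ℕ} {e : κ → ℤ} {t₀ : ℤ} (he : Function.Injective e) (hm : ∀ i, e i ∈ lbs L)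
    (he₀ : 0 ≤ e₀)
    (hbx : ∀ x₀ ∈ iv N t₀, ∀ k ∈ Icc 1 N, s x₀ k ⊆ bx3 N R k (c x₀ k))
    (hdom : ∀ x₀ ∈ iv N t₀, ∀ k ∈ Icc 1 N, ∀ m ∈ s x₀ k, ∀ x ∈ iv k m.2.2, ∀ ε : κ → ℝ,
      ∑ y ∈ iv k m.2.1, (ε ⬝ᵥ b x₀ k y x) ^ 2 ≤
        ∑ y ∈ iv k m.2.1, g x₀ k x y ^ 2 * (ε ⬝ᵥ u x y) ^ 2)
    (hg : ∀ x₀ ∈ iv N t₀, ∀ k ∈ Icc 1 N, ∀ m ∈ s x₀ k, ∀ y ∈ iv k m.2.1, ∀ x ∈ iv k m.2.2,
      (avg (iv k (ix k x₀)) fun z => g z k x y ^ 2) ≤ e₀)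
    (hT : ∀ x, Tr l N (G x) (K x))
    (hG : ∀ x ∈ iv N R.2.2, ∀ k ∈ Icc 1 N, ∀ q ∈ iv (N - k) R.2.1,
      G x k q = ((2 : ℝ) ^ k)⁻¹ • ∑ y ∈ iv k q, vecMulVec (u x y) (u x y)) :
    ∑ x₀ ∈ iv N t₀, ∑ k ∈ Icc 1 N, ∑ m ∈ s x₀ k,
        (YF L l e K (b x₀) (k + L) m * (YF L l e K (b x₀) (k + L) m)ᵀ).trace ≤
      4 ^ L * (e₀ * 4 ^ N * ∑ x ∈ iv N R.2.2, (G x N R.2.1).trace) := by
  -- the payer at the nodes
  set P : ℤ → ℕ → ℤ → ℤ → Prop := fun i k x y =>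
    ∃ m ∈ s i k, y ∈ iv k m.2.1 ∧ x ∈ iv k m.2.2 with hP
  have key := flow_mass (X := iv N t₀) (g := fun i k x y => if P i k x y then g i k x y else 0)
    (b := b) (l := l) (c := c) he₀ hT hG hbx
    (fun i hi k hk m hm' x hx w => by
      refine (hdom i hi k hk m hm' x hx w).trans (le_of_eq ?_)
      refine sum_congr rfl fun y hy => ?_
      rw [if_pos (show P i k x y from ⟨m, hm', hy, hx⟩)])
    (fun k hk x y => by
      have hkN := (mem_Icc.1 hk).2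
      rw [← H633.sum_cells hkN t₀ fun i => (if P i k x y then g i k x y else 0) ^ 2]
      have h1 : ∀ J ∈ iv (N - k) t₀, ∑ i ∈ iv k J, (if P i k x y then g i k x y else 0) ^ 2 ≤
          e₀ * 2 ^ k := by
        intro J hJ
        by_cases h : ∃ i ∈ iv k J, P i k x y
        · obtain ⟨i, hi, m, hm', hy, hx⟩ := h
          have hiN : i ∈ iv N t₀ := by
            rw [mem_iv] at hJ hi ⊢
            rw [show N = k + (N - k) by omega, ← ix_ix, hi, hJ]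
          have h2 := hg i hiN k hk m hm' y hy x hx
          rw [avg_iv, mem_iv.1 hi, inv_mul_le_iff₀ (by positivity)] at h2
          refine le_trans (sum_le_sum fun z _ => ?_) (h2.trans (le_of_eq (mul_comm _ _)))
          split_ifs
          · exact le_rfl
          · rw [zero_pow two_ne_zero]
            exact sq_nonneg _
        · refine le_trans (le_of_eq (sum_eq_zero fun i hi => ?_)) (by positivity)
          rw [if_neg fun h2 => h ⟨i, hi, h2⟩, zero_pow two_ne_zero]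
      refine (sum_le_sum h1).trans (le_of_eq ?_)
      rw [sum_const, nsmul_eq_mul]
      have h3 : ((iv (N - k) t₀).card : ℝ) = 2 ^ (N - k) := by
        rw [card_iv]
        push_cast
        rfl
      rw [h3]
      have h4 : (2 : ℝ) ^ N = 2 ^ (N - k) * 2 ^ k := by
        rw [← pow_add, Nat.sub_add_cancel hkN]
      rw [h4]
      ring)
  simp only [tr_YF he hm, ← mul_sum]
  refine mul_le_mul_of_nonneg_left (key.trans (le_of_eq ?_)) (by positivity)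
  rw [← mul_sum, show (4 : ℝ) ^ N = 2 ^ N * 2 ^ N by rw [← mul_pow]; norm_num]
  ring

/-- `flowW` with the sum of the traces at most `2 ^ N * M`. -/
theorem flowW_le {L : ℕ} {e : κ → ℤ} {t₀ : ℤ} {M : ℝ} (he : Function.Injective e)
    (hm : ∀ i, e i ∈ lbs L)
    (he₀ : 0 ≤ e₀)
    (hbx : ∀ x₀ ∈ iv N t₀, ∀ k ∈ Icc 1 N, s x₀ k ⊆ bx3 N R k (c x₀ k))
    (hdom : ∀ x₀ ∈ iv N t₀, ∀ k ∈ Icc 1 N, ∀ m ∈ s x₀ k, ∀ x ∈ iv k m.2.2, ∀ ε : κ → ℝ,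
      ∑ y ∈ iv k m.2.1, (ε ⬝ᵥ b x₀ k y x) ^ 2 ≤
        ∑ y ∈ iv k m.2.1, g x₀ k x y ^ 2 * (ε ⬝ᵥ u x y) ^ 2)
    (hg : ∀ x₀ ∈ iv N t₀, ∀ k ∈ Icc 1 N, ∀ m ∈ s x₀ k, ∀ y ∈ iv k m.2.1, ∀ x ∈ iv k m.2.2,
      (avg (iv k (ix k x₀)) fun z => g z k x y ^ 2) ≤ e₀)
    (hT : ∀ x, Tr l N (G x) (K x))
    (hG : ∀ x ∈ iv N R.2.2, ∀ k ∈ Icc 1 N, ∀ q ∈ iv (N - k) R.2.1,
      G x k q = ((2 : ℝ) ^ k)⁻¹ • ∑ y ∈ iv k q, vecMulVec (u x y) (u x y))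
    (hM : ∑ x ∈ iv N R.2.2, (G x N R.2.1).trace ≤ 2 ^ N * M) :
    ∑ x₀ ∈ iv N t₀, ∑ k ∈ Icc 1 N, ∑ m ∈ s x₀ k,
        (YF L l e K (b x₀) (k + L) m * (YF L l e K (b x₀) (k + L) m)ᵀ).trace ≤
      4 ^ L * 8 ^ N * e₀ * M := by
  refine (flowW he hm he₀ hbx hdom hg hT hG).trans ?_
  have h1 : (8 : ℝ) ^ N = 4 ^ N * 2 ^ N := by rw [← mul_pow]; norm_num
  calc 4 ^ L * (e₀ * 4 ^ N * ∑ x ∈ iv N R.2.2, (G x N R.2.1).trace)
      ≤ 4 ^ L * (e₀ * 4 ^ N * (2 ^ N * M)) := by gcongr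
    _ = _ := by rw [h1]; ring

end

end Vale.Agent.P141.H622
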