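import Vale.Agent.P141.H622.FlowW
import Vale.Agent.P141.H401.CutData
import Vale.Agent.P141.H576.StatZ
import Vale.Agent.P141.H80.CutCol
import Vale.Agent.P141.H652.GlueI
import Vale.Agent.P141.H511.NZlab

/-!
# P141, line (A), gap part: the flow inputs of `H609.tzX_lab` for the cut families

Class data, families `cb`, `mC` of `H401`, tree `KT λ u`, one tile `t₀` of `x₀`.

* `row_time` : rows at the time `k` on the squares of scale `k`;
* `cb_row` : rows of `cb` are at most the rows of the killed family `mb`;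
* `cb_capR` : the cap of `cb` at the nodes;
* `mass_GT` : the mass of `u`; `avg_kF` : line energies of the killed inputs;
* `hw_cut` : the mass of the flow slot (hypothesis `hw` of `H555.tzX_lab'`).
-/

namespace Vale.Agent.P141.H622

open Finset Matrix Vale.Agent.P075 Vale.Agent.P141.PL Vale.Agent.P141.PL.H588
open Vale.Agent.P141.PL.H804 Vale.Agent.P141.H958 Vale.Agent.P141.H338
open Vale.Agent.P141.PL.H315 (avg Tri)
open Vale.Agent.P141.H633 (Sf nv nv_nonneg SfK FB YF)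
open Vale.Agent.P141.H420 (Tr Nd tsum)
open Vale.Agent.P141.H48 (BSl sst)
open Vale.Agent.P141.H205 (lowF ef)
open Vale.Agent.P141.H80 (lowG lowW prW)
open Vale.Agent.P141.H736 (Path)
open Vale.Agent.P141.H677
open Vale.Agent.P141.H401

noncomputable section

open scoped Classical

/-! ### Rows -/

section rows

variable {κ : Type*} [Fintype κ] {Q : ℕ → ℤ → ℤ → Prop} {F F' : ℕ → ℤ → ℤ → κ → ℝ}
  {N : ℕ} {R S : ℤ}

/-- rows at the time `k` on the squares of scale `k` -/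
theorem row_time {w : κ → ℝ}
    (h : ∀ k < N, ∀ n ∈ iv (N - k) R, ∀ m ∈ iv (N - k) S, ∀ x ∈ iv k n,
      ∑ y ∈ iv k m, (w ⬝ᵥ F' (k + 1) x y) ^ 2 ≤ ∑ y ∈ iv k m, (w ⬝ᵥ F (k + 1) x y) ^ 2)
    {k : ℕ} (hk : k ∈ Icc 1 N) {n m : ℤ} (hn : n ∈ iv (N - k) R) (hm : m ∈ iv (N - k) S) {x : ℤ}
    (hx : x ∈ iv k n) :
    ∑ y ∈ iv k m, (w ⬝ᵥ F' k x y) ^ 2 ≤ ∑ y ∈ iv k m, (w ⬝ᵥ F k x y) ^ 2 := by
  obtain ⟨j, rfl⟩ : ∃ j, k = j + 1 := ⟨k - 1, by have := (mem_Icc.1 hk).1; omega⟩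
  have hj := (mem_Icc.1 hk).2
  have hn' := H80.mem_child hj hn
  have hm' := H80.mem_child hj hm
  rw [H205.sum_iv_two' j m fun y => (w ⬝ᵥ F' (j + 1) x y) ^ 2,
    H205.sum_iv_two' j m fun y => (w ⬝ᵥ F (j + 1) x y) ^ 2]
  rcases H80.mem_half hx with hx' | hx'
  · exact add_le_add (h j (by omega) _ hn'.1 _ hm'.1 x hx') (h j (by omega) _ hn'.1 _ hm'.2 x hx')
  · exact add_le_add (h j (by omega) _ hn'.2 _ hm'.1 x hx') (h j (by omega) _ hn'.2 _ hm'.2 x hx')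

/-- the spectral cut of `H205` as a cut path of `H80` -/
theorem lowF_eq_lowG (Q : ℕ → ℤ → ℤ → Prop) (c : ℝ) (F : ℕ → ℤ → ℤ → κ → ℝ) :
    lowF Q c F = lowG Q (fun k n m => H205.prL k (F (k + 1)) c n m) F := by
  funext k
  induction k with
  | zero => rfl
  | succ k ih =>
    funext x y
    by_cases hQ : Q k (ix k x) (ix k y)
    · rw [H205.lowF_on hQ (mem_iv.2 rfl) (mem_iv.2 rfl),
        H80.lowG_on hQ (mem_iv.2 rfl) (mem_iv.2 rfl)]
    · rw [H205.lowF_off hQ (mem_iv.2 rfl) (mem_iv.2 rfl),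
        H80.lowG_off hQ (mem_iv.2 rfl) (mem_iv.2 rfl), ih]

/-- rows of the spectral cut of `H205` on every square -/
theorem lowF_row (c : ℝ) (hF : ∀ l, Path N R S Q (fun k x y => F k x y l))
    (hQ0 : ∀ n m, Q 0 n m) (w : κ → ℝ) :
    ∀ k < N, ∀ n ∈ iv (N - k) R, ∀ m ∈ iv (N - k) S, ∀ x ∈ iv k n,
      ∑ y ∈ iv k m, (w ⬝ᵥ lowF Q c F (k + 1) x y) ^ 2 ≤
        ∑ y ∈ iv k m, (w ⬝ᵥ F (k + 1) x y) ^ 2 := by
  rw [lowF_eq_lowG]
  exact H80.lowG_row (fun k n m => H205.lowP_transpose _ _) (fun k n m => H205.lowP_idem _ _) hF hQ0 w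

end rows

/-! ### The cut families -/

variable {ι : Type} [Fintype ι] [DecidableEq ι] {p : H401.Num} {n K : ℕ} {ez s r P : ℝ} {x : Pt}
  {U : Tri} {g : ℤ → ℤ → ℝ} {u v : ℤ → ℤ → ι → ℝ} {F2 F3 : ℕ → Pt → ℝ} {Q3 : ℕ → Pt → Prop}

omit [Fintype ι] [DecidableEq ι] in
/-- the killed family is a path -/
theorem mb_path (hB : BSl n p.e p.cP F3 Q3) (hK : K ≤ n) (x0 R S : ℤ) (j : ι) :
    Path K R S (fun k n m => qB p U K Q3 k (ix k x0) n m)
      (fun k x y => mb p U K u F3 x0 k x y j) := by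
  intro k hk i _ m _ hQ x hx y hy
  have h1 := H576.agree_kD (H576.Dd_sst p.Lm U.1 K) hB (lt_of_lt_of_le hk hK) hQ hx hy
  rw [H576.kD_sst] at h1
  show kF p.Lm U.1 K F3 (k + 1) (x0, x, y) * u x y j = kF p.Lm U.1 K F3 k (x0, x, y) * u x y j
  rw [h1]

/-- **Rows of the cut family** are at most the rows of the killed family. -/
theorem cb_row (hB : BSl n p.e p.cP F3 Q3) (hK : K ≤ n) (x0 R S : ℤ) (w : ι → ℝ) {k : ℕ}
    (hk : k ∈ Icc 1 K) {i m : ℤ} (hi : i ∈ iv (K - k) R) (hm : m ∈ iv (K - k) S) {x : ℤ}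
    (hx : x ∈ iv k i) :
    ∑ y ∈ iv k m, (w ⬝ᵥ cb p s r U K u F3 Q3 x0 k x y) ^ 2 ≤
      ∑ y ∈ iv k m, kF p.Lm U.1 K F3 k (x0, x, y) ^ 2 * (w ⬝ᵥ u x y) ^ 2 := by
  have hQ0 : ∀ n m : ℤ, (fun k n m => qB p U K Q3 k (ix k x0) n m) 0 n m :=
    fun n m => H576.QD_zero _ _ _ _ _
  have h1 := row_time (H80.lowW_row (K := KT (p.lam s r) u) (c := p.be s r ^ 2 / √(p.lam s r))
    (F := b1 p s r U K u F3 Q3 x0) (R := R) (S := S) (N := K)
    (fun l => H205.lowF_path K R S l) hQ0 w) hk hi hm hx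
  have h2 := row_time (lowF_row (R := R) (S := S) (N := K) (p.th s r ^ 2)
    (fun j => mb_path (u := u) (U := U) hB hK x0 R S j) hQ0 w) hk hi hm hx
  refine (h1.trans h2).trans (le_of_eq (sum_congr rfl fun y _ => ?_))
  show (w ⬝ᵥ (kF p.Lm U.1 K F3 k (x0, x, y) • u x y)) ^ 2 = _
  rw [dotProduct_smul, smul_eq_mul, mul_pow]

/-- **The cap of the cut family** at the nodes. -/
theorem cb_capR {L : ℕ} {e : ι → ℤ} (he : Function.Injective e) (hm : ∀ i, e i ∈ lbs L) (x0 : ℤ)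
    {k : ℕ} (hk : 1 ≤ k) (m n : ℤ) :
    CapR L k m n (p.th s r) fun lab y x => H338.cu e (cb p s r U K u F3 Q3 x0 k x y) lab :=
  H576.capR_lowW he hm (fun _ _ => H576.QD_zero _ _ _ _ _) (mb p U K u F3 x0) hk n m

omit [DecidableEq ι] in
/-- **The mass of `u`.** -/
theorem mass_GT (hc : H305.Cls K x s r P U g u v) :
    ∑ z ∈ iv K (rv (cx K x)).2.2, (GT u z K (rv (cx K x)).2.1).trace ≤ 2 ^ K * s := by
  have h1 : ∀ z ∈ iv K (rv (cx K x)).2.2, (GT u z K (rv (cx K x)).2.1).trace ≤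
      ((2 : ℝ) ^ K)⁻¹ * ∑ y ∈ iv K (rv (cx K x)).2.1, U.1 (z, y) ^ 2 := by
    intro z hz
    rw [GT_trace]
    refine mul_le_mul_of_nonneg_left (sum_le_sum fun y hy => ?_) (by positivity)
    exact hc.u_le z hz y hy
  refine (sum_le_sum h1).trans ?_
  have h2 := hc.U_u2
  unfold PL.H315.A2 PL.H315.avg at h2
  rw [sum_product, card_product] at h2
  have hcard : ∀ a : ℤ, ((PL.H315.iv K a).card : ℝ) = 2 ^ K := by
    intro a
    have : (PL.H315.iv K a).card = (iv K (ix K a)).card := rfl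
    rw [this, card_iv]
    push_cast
    rfl
  push_cast at h2
  rw [hcard, hcard] at h2
  have h3 : (0 : ℝ) < 2 ^ K := by positivity
  rw [inv_mul_le_iff₀ (by positivity)] at h2
  rw [← mul_sum, inv_mul_le_iff₀ h3, ← mul_assoc]
  exact h2

/-- line energies of the killed input, averages -/
theorem avg_kF {e cP Λ : ℝ} {a : ℤ × ℤ → ℝ} {F : ℕ → Pt → ℝ} {Q : ℕ → Pt → Prop}
    (h : BSl n e cP F Q) (hK : K ≤ n) {k : ℕ} (hk : k ∈ Icc 1 K) (j x1 x3 : ℤ) :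
    (avg (iv k j) fun z => kF Λ a K F k (z, x1, x3) ^ 2) ≤ e := by
  have h1 := H652.line_kF (Λ := Λ) (a := a) hK h hk j x1 x3
  rw [H338.avg_iv, inv_mul_le_iff₀ (by positivity), mul_comm]
  exact h1

/-- **The mass of the flow of the cut families**, one tile. -/
theorem hw_cut {L : ℕ} {e : ι → ℤ} (he : Function.Injective e) (hm : ∀ i, e i ∈ lbs L)
    (Al : ℕ → Pt → Prop) (o t0 : ℤ) (ht : 0 < p.t) (hs : 0 < s) (hr : 1 ≤ r) (hpe : 0 ≤ p.e)
    (hc : H305.Cls K x s r P U g u v) (hB : BSl n p.e p.cP F3 Q3) (hK : K ≤ n) :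
    ∑ i ∈ iv K t0, ∑ k ∈ Icc 1 K, ∑ m ∈ sN Al o K (cx K x) i k,
      (H511.YW L (p.lam s r) e (KT (p.lam s r) u) (cb p s r U K u F3 Q3 i) (k + L) m *
        (H511.YW L (p.lam s r) e (KT (p.lam s r) u) (cb p s r U K u F3 Q3 i) (k + L) m)ᵀ).trace ≤
      4 ^ L * 8 ^ K * p.e * s := by
  simp only [H511.YW_YF]
  refine flowW_le (R := rv (cx K x)) (c := cP o) (s := sN Al o K (cx K x)) (G := GT u)
    (b := fun i k y x => cb p s r U K u F3 Q3 i k x y)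
    (g := fun i k x y => kF p.Lm U.1 K F3 k (i, x, y)) (u := u) he hm hpe
    (fun i _ k _ => sN_sub _ _ _ _ _ _) ?_ ?_ (fun z => tr_T (H401.Num.lam_pos ht hs hr) K u z)
    (fun _ _ _ _ _ _ => rfl) (mass_GT hc)
  · intro i _ k hk m hm' z hz w
    have h1 := (mem_filter.1 (sN_sub _ _ _ _ _ _ hm')).1
    rw [mem_product, mem_product] at h1
    exact cb_row hB hK i _ _ w hk h1.2.2 h1.2.1 hz
  · intro i _ k hk m _ y _ z _
    exact avg_kF hB hK hk _ _ _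

end

end Vale.Agent.P141.H622
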