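import Vale.Agent.P141.H622.InstF
import Vale.Agent.P141.H401.CutUV
import Vale.Agent.P141.H609.RPW

/-!
# P141, line (A): row energies of the cut families over the cells of `x₀`

* `row_cell` : the row energies of `kF • f` over one cell of `x₀`, from the fibres of `f`;
* `row_cb`, `row_C1` : the cut family `cb` and `C / √ez` at time `k` on the squares of scale `k`;
* `rt_cb`, `rt_C1` : the same in the row traces `H433.rt` of the encoded slots of `H609`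
  (any slot of norm `c |cb|²`; `(C ; 0)`).
-/

namespace Vale.Agent.P141.H622

open Finset Matrix Vale.Agent.P141.PL Vale.Agent.P141.PL.H588
open Vale.Agent.P141.PL.H804 Vale.Agent.P141.H958 Vale.Agent.P141.H338
open Vale.Agent.P141.PL.H315 (Tri)
open Vale.Agent.P141.H48 (BSl sst)
open Vale.Agent.P141.H677
open Vale.Agent.P141.H677.Sk (lam1)
open Vale.Agent.P141.H401 (cb mC FibU FibP)

noncomputable section

open scoped Classical

variable {ι : Type} [Fintype ι] [DecidableEq ι]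

omit [DecidableEq ι] in
theorem dp_nn (w : ι → ℝ) : 0 ≤ w ⬝ᵥ w := sum_nonneg fun i _ => mul_self_nonneg (w i)

omit [DecidableEq ι] in
/-- **Rows over one cell of `x₀`**, from the fibres on the alive squares. -/
theorem row_cell {n K : ℕ} {S T : ℤ} {e cP Λ lam : ℝ} {a : ℤ × ℤ → ℝ} {F : ℕ → Pt → ℝ}
    {Q : ℕ → Pt → Prop} (he : 0 ≤ e) (hl : 0 ≤ lam) (hB : BSl n e cP F Q) (hK : K ≤ n)
    {f : ℤ → ℤ → ι → ℝ}
    (fib : ∀ k ≤ K, ∀ x ∈ iv K S, ∀ y ∈ iv K T, ¬ sst Λ a K k x y →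
      ∑ y' ∈ iv k (ix k y), f x y' ⬝ᵥ f x y' ≤ lam * 2 ^ k)
    {k : ℕ} (hk : k ∈ Icc 1 K) (q : ℤ) {m : ℤ} (hm : m ∈ iv (K - k) T) {p : ℤ}
    (hp : p ∈ iv K S) :
    ∑ x0 ∈ iv k q, ∑ y ∈ iv k m, kF Λ a K F k (x0, p, y) ^ 2 * (f p y ⬝ᵥ f p y) ≤
      2 ^ k * e * (2 ^ k * lam) := by
  have hkK := (mem_Icc.1 hk).2
  rw [sum_comm]
  have hy0 : (2 : ℤ) ^ k * m ∈ iv k m := by
    rw [mem_iv]
    unfold ix
    rw [Int.mul_ediv_cancel_left _ (by positivity)]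
  by_cases hd : sst Λ a K k p (2 ^ k * m)
  · refine le_trans (le_of_eq ?_) (by positivity : (0 : ℝ) ≤ 2 ^ k * e * (2 ^ k * lam))
    refine sum_eq_zero fun y hy => sum_eq_zero fun x0 _ => ?_
    have h1 : sst Λ a K k p y :=
      (H769.sst_congr rfl ((mem_iv.1 hy).trans (mem_iv.1 hy0).symm)).2 hd
    unfold kF
    rw [if_pos (Or.inr h1)]
    ring
  · have hroot : (2 : ℤ) ^ k * m ∈ iv K T := by
      have h1 : (2 : ℤ) ^ k * m ∈ iv ((K - k) + k) T :=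
        mem_iv_add.2 (by rw [mem_iv.1 hy0]; exact hm)
      rwa [Nat.sub_add_cancel hkK] at h1
    have h2 := fib k hkK p hp _ hroot hd
    rw [mem_iv.1 hy0] at h2
    have h3 : ∀ y ∈ iv k m, ∑ x0 ∈ iv k q, kF Λ a K F k (x0, p, y) ^ 2 * (f p y ⬝ᵥ f p y) ≤
        2 ^ k * e * (f p y ⬝ᵥ f p y) := by
      intro y _
      rw [← sum_mul]
      refine mul_le_mul_of_nonneg_right ?_ (dp_nn _)
      exact (H652.line_kF hK hB hk q p y).trans (le_of_eq (mul_comm _ _))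
    refine (sum_le_sum h3).trans ?_
    rw [← mul_sum]
    exact mul_le_mul_of_nonneg_left (h2.trans (le_of_eq (mul_comm _ _))) (by positivity)

variable {p : H401.Num} {n K : ℕ} {ez s r : ℝ} {x : Pt} {U : Tri} {u v : ℤ → ℤ → ι → ℝ}
  {F2 F3 : ℕ → Pt → ℝ} {Q2 Q3 : ℕ → Pt → Prop}

/-- rows of `cb` at one `x₀` -/
theorem row_cb_le (hB : BSl n p.e p.cP F3 Q3) (hK : K ≤ n) (i : ℤ) {S T : ℤ} {k : ℕ}
    (hk : k ∈ Icc 1 K) {m : ℤ} (hm : m ∈ iv (K - k) T) {y : ℤ} (hy : y ∈ iv K S) :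
    ∑ z ∈ iv k m, cb p s r U K u F3 Q3 i k y z ⬝ᵥ cb p s r U K u F3 Q3 i k y z ≤
      ∑ z ∈ iv k m, kF p.Lm U.1 K F3 k (i, y, z) ^ 2 * (u y z ⬝ᵥ u y z) := by
  have hyk : ix k y ∈ iv (K - k) S := by
    rw [mem_iv, ix_ix, show k + (K - k) = K by have := (mem_Icc.1 hk).2; omega]
    exact mem_iv.1 hy
  have e1 : ∀ w : ι → ℝ, w ⬝ᵥ w = ∑ a, (Pi.single a (1 : ℝ) ⬝ᵥ w) ^ 2 := by
    intro w
    have h : ∀ a, Pi.single a (1 : ℝ) ⬝ᵥ w = w a := fun a => by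
      rw [single_dotProduct, one_mul]
    simp only [h]
    simp only [dotProduct, ← pow_two]
  simp only [e1 (u y _), e1 (cb p s r U K u F3 Q3 i k y _), mul_sum]
  rw [sum_comm, sum_comm (s := iv k m)]
  refine sum_le_sum fun a _ => ?_
  exact cb_row hB hK i _ _ (Pi.single a (1 : ℝ)) hk hyk hm (mem_iv.2 rfl)

/-- **Rows of the low part of `b` over one cell of `x₀`.** -/
theorem row_cb (hpe : 0 ≤ p.e) (hl : 0 ≤ lam1 p s r) (hB : BSl n p.e p.cP F3 Q3) (hK : K ≤ n)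
    (hf : FibU p K x s r U u) {k : ℕ} (hk : k ∈ Icc 1 K) (q : ℤ) {m : ℤ}
    (hm : m ∈ iv (K - k) (cx K x).2.1) {y : ℤ} (hy : y ∈ iv K (cx K x).1) :
    ∑ i ∈ iv k q, ∑ z ∈ iv k m,
      cb p s r U K u F3 Q3 i k y z ⬝ᵥ cb p s r U K u F3 Q3 i k y z ≤
      4 ^ k * (p.e * lam1 p s r) := by
  refine (sum_le_sum fun i _ => row_cb_le hB hK i hk hm hy).trans
    ((row_cell hpe hl hB hK (S := (cx K x).1) (T := (cx K x).2.1) hf hk q hm hy).trans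
      (le_of_eq ?_))
  rw [show (4 : ℝ) = 2 * 2 by norm_num, mul_pow]
  ring

/-- **Rows of `C / √ez` over one cell of `x₀`.** -/
theorem row_C1 (hez : 0 < ez) (hl : 0 ≤ lam1 p s r) (hB : BSl n ez p.cP F2 Q2) (hK : K ≤ n)
    (hf : FibP p K x s r U v) {k : ℕ} (hk : k ∈ Icc 1 K) (q : ℤ) {m : ℤ}
    (hm : m ∈ iv (K - k) (cx K x).2.2) {y : ℤ} (hy : y ∈ iv K (cx K x).1) :
    ∑ i ∈ iv k q, ∑ z ∈ iv k m,
      ((√ez)⁻¹ • mC p U K v F2 i k z y) ⬝ᵥ ((√ez)⁻¹ • mC p U K v F2 i k z y) ≤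
      4 ^ k * lam1 p s r := by
  have h1 : ∀ i z, ((√ez)⁻¹ • mC p U K v F2 i k z y) ⬝ᵥ ((√ez)⁻¹ • mC p U K v F2 i k z y) =
      ez⁻¹ * (kF p.Lm U.2.1 K F2 k (i, y, z) ^ 2 * (v y z ⬝ᵥ v y z)) := by
    intro i z
    have h0 : mC p U K v F2 i k z y = kF p.Lm U.2.1 K F2 k (i, y, z) • v y z := rfl
    rw [h0]
    simp only [smul_dotProduct, dotProduct_smul, smul_eq_mul]
    have h5 : (√ez)⁻¹ * (√ez)⁻¹ = ez⁻¹ := by
      rw [← mul_inv, Real.mul_self_sqrt hez.le]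
    rw [← h5]
    ring
  simp only [h1, ← mul_sum]
  have h2 := row_cell hez.le hl hB hK (S := (cx K x).1) (T := (cx K x).2.2) hf hk q hm hy
  refine (mul_le_mul_of_nonneg_left h2 (inv_pos.2 hez).le).trans (le_of_eq ?_)
  rw [show (4 : ℝ) = 2 * 2 by norm_num, mul_pow]
  field_simp

/-! ### Row traces of the encoded slots -/

variable {L : ℕ} {e : ι ⊕ ι → ℤ}

omit [DecidableEq ι] in
/-- squares of the entries -/
theorem sum_cu_sq {κ : Type*} [Fintype κ] {e : κ → ℤ} (he : Function.Injective e)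
    (hm : ∀ i, e i ∈ lbs L) (w : κ → ℝ) : ∑ l ∈ lbs L, H338.cu e w l ^ 2 = w ⬝ᵥ w := by
  have h := H338.sum_cu_cu he hm w w
  simp only [← pow_two] at h
  rw [h]
  simp only [dotProduct, ← pow_two]

/-- **Row traces of the slot of `cb`**, any slot `B` of norm `c |cb|²`. -/
theorem rt_cb (he : Function.Injective e) (hm : ∀ i, e i ∈ lbs L) {c : ℝ} (hc : 0 ≤ c)
    {B : ℤ → ℕ → ℤ → ℤ → ι ⊕ ι → ℝ}
    (hB' : ∀ i k y z, B i k y z ⬝ᵥ B i k y z =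
      c * (cb p s r U K u F3 Q3 i k y z ⬝ᵥ cb p s r U K u F3 Q3 i k y z))
    (hpe : 0 ≤ p.e) (hl : 0 ≤ lam1 p s r) (hB : BSl n p.e p.cP F3 Q3) (hK : K ≤ n)
    (hf : FibU p K x s r U u) {k : ℕ} (hk : k < K) (q : ℤ) {m : ℤ}
    (hn : m ∈ iv (K - (k + 1)) (cx K x).2.1) {y : ℤ} (hy : y ∈ iv K (cx K x).1) :
    ∑ i ∈ iv (k + 1) q, H433.rt L (H609.RPW.eb L e (B i) (L + (k + 1))) (k + 1) m y ≤
      c * (p.e * lam1 p s r) * 2 ^ (k + 1) := by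
  have hk1 : k + 1 ∈ Icc 1 K := mem_Icc.2 ⟨by omega, hk⟩
  simp only [H609.RPW.rt_eb, sum_cu_sq he hm, hB', ← mul_sum]
  have h1 := mul_le_mul_of_nonneg_left
    (row_cb (s := s) (r := r) (U := U) (u := u) hpe hl hB hK hf hk1 q hn hy) hc
  have h2 : (0 : ℝ) < 2 ^ (k + 1) := by positivity
  rw [inv_mul_le_iff₀ h2]
  refine h1.trans (le_of_eq ?_)
  rw [show (4 : ℝ) = 2 * 2 by norm_num, mul_pow]
  ring

/-- **Row traces of the slot `(C ; 0)`.** -/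
theorem rt_C1 (he : Function.Injective e) (hm : ∀ i, e i ∈ lbs L) (hez : 0 < ez)
    (hl : 0 ≤ lam1 p s r) (hB : BSl n ez p.cP F2 Q2) (hK : K ≤ n)
    (hf : FibP p K x s r U v) {k : ℕ} (hk : k < K) (q : ℤ) {m : ℤ}
    (hn : m ∈ iv (K - (k + 1)) (cx K x).2.2) {y : ℤ} (hy : y ∈ iv K (cx K x).1) :
    ∑ i ∈ iv (k + 1) q, H433.rt L
      (H609.RPW.ec L e (fun k z x1 => (√ez)⁻¹ • mC p U K v F2 i k z x1) (L + (k + 1)))
      (k + 1) m y ≤ lam1 p s r * 2 ^ (k + 1) := by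
  have hk1 : k + 1 ∈ Icc 1 K := mem_Icc.2 ⟨by omega, hk⟩
  have h0 : ∀ w : ι → ℝ, Sum.elim w (0 : ι → ℝ) ⬝ᵥ Sum.elim w (0 : ι → ℝ) = w ⬝ᵥ w := by
    intro w
    rw [sumElim_dotProduct_sumElim, zero_dotProduct, add_zero]
  simp only [H609.RPW.rt_ec, sum_cu_sq he hm, h0, ← mul_sum]
  have h1 := row_C1 hez hl hB hK hf hk1 q hn hy
  have h2 : (0 : ℝ) < 2 ^ (k + 1) := by positivity
  rw [inv_mul_le_iff₀ h2]
  refine h1.trans (le_of_eq ?_)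
  rw [show (4 : ℝ) = 2 * 2 by norm_num, mul_pow]
  ring

end

end Vale.Agent.P141.H622
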