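import Vale.Agent.P141.H622.CoreB

/-!
# P141, line W: S4 lemma for the weight `W_g`, every gauge, every height, every row

`core_G`: the fixed row test.

`row_G`: for every row `c` of the gauge `a`: `E_(z, x) (Gram matrix)² ≤ 41 δ² e (q(c)² r(c) R)^(1/3)`,
`r (c) = E_y a(c, y)²`, `R = sup r`, `q (c) = E_y a(c, y)² E_x a(x, y)²`.

`mo4_G`: `mo4 ≤ 41 δ² e |a|₂² R^(1/3) S^(2/3)` with `R`, `S` bounds of the rows and of the columns.
-/

namespace Vale.Agent.P141.H622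

noncomputable section

open scoped BigOperators
open Finset Vale.Agent.P141.PL.H315 Vale.Agent.P141.H315 Vale.Agent.P141.H550
open Vale.Agent.P141.H922 (n2 n2_nonneg n2_sq)
open Vale.Agent.P141.H238 (pG v2 v2_nonneg)

variable {A B C : Finset ℤ} {s : ℤ → ℝ} {F K b : ℤ → ℤ → ℝ} {e : ℝ} {P : ℤ → ℝ}

/-- the geometric factor -/
def wf (p : ℤ × ℤ) : ℝ := (1 / 2 : ℝ) ^ (p.1 - p.2).natAbs

theorem wf_nonneg (p : ℤ × ℤ) : 0 ≤ wf p := by unfold wf; positivity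

theorem wf_ge {k l : ℤ} (h : l ≤ k) : ((16 : ℝ) ^ k)⁻¹ * (16 : ℝ) ^ l = wf (k, l) ^ 4 := by
  obtain ⟨n, rfl⟩ : ∃ n : ℕ, k = l + n := ⟨(k - l).toNat, by omega⟩
  unfold wf
  have h1 : (l + (n : ℤ) - l).natAbs = n := by omega
  simp only [h1]
  rw [zpow_add₀ (by norm_num), zpow_natCast, ← pow_mul, mul_comm n 4, pow_mul]
  have h2 : (16 : ℝ) ^ l ≠ 0 := by positivity
  rw [mul_inv, one_div, inv_pow, ← inv_pow, mul_comm ((16 : ℝ) ^ l)⁻¹, mul_assoc,
    inv_mul_cancel₀ h2, mul_one]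
  congr 1
  norm_num

theorem wf_lt {k l : ℤ} (h : k ≤ l) : (16 : ℝ) ^ k * ((16 : ℝ) ^ l)⁻¹ = wf (k, l) ^ 4 := by
  have h1 := wf_ge h
  have h2 : wf (l, k) = wf (k, l) := by
    unfold wf
    simp only
    rw [show (l - k).natAbs = (k - l).natAbs by omega]
  rw [← h2, ← h1, mul_comm]

theorem prod6 {a b c u v w a' b' c' u' v' w' : ℝ} (ha : 0 ≤ a) (hb : 0 ≤ b) (hc : 0 ≤ c)
    (hu : 0 ≤ u) (hv : 0 ≤ v) (hw : 0 ≤ w) (h1 : a ≤ a') (h2 : b ≤ b') (h3 : c ≤ c')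
    (h4 : u ≤ u') (h5 : v ≤ v') (h6 : w ≤ w') :
    a * b * c * (u * v * w) ≤ a' * b' * c' * (u' * v' * w') := by
  have hb' := hb.trans h2
  have hc' := hc.trans h3
  have ha' := ha.trans h1
  have hu' := hu.trans h4
  have hv' := hv.trans h5
  gcongr

/-- the six functions of the pair of levels -/
def fam (A B C : Finset ℤ) (s : ℤ → ℝ) (F K b : ℤ → ℤ → ℝ) (e : ℝ) (P : ℤ → ℝ) :
    Fin 6 → ℤ × ℤ → ℝ :=
  ![fun p => 256 * e * (qk B s P p.1 * wf p), fun p => gl A B C s F K e p.2 * wf p,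
    fun p => gl A B C s F K e p.2 * wf p, fun p => bl B C s F e p.2 * wf p,
    fun p => v2 (A ×ˢ B ×ˢ C) (e12 (tst B s F K b e p.1 p.2).1)
      (e13 (tst B s F K b e p.1 p.2).2.1),
    fun p => qkl B C s F e P p.1 p.2]

theorem fam_nonneg (he : 0 < e) (hP0 : ∀ y ∈ B, 0 ≤ P y) (i : Fin 6) (p : ℤ × ℤ) :
    0 ≤ fam A B C s F K b e P i p := by
  have h0 := wf_nonneg p
  have h1 := qk_nonneg (s := s) hP0 p.1
  have h2 : 0 ≤ gl A B C s F K e p.2 := gl_nonneg _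
  have h3 : 0 ≤ bl B C s F e p.2 := bl_nonneg _
  have h4 : 0 ≤ qkl B C s F e P p.1 p.2 := qkl_nonneg hP0 _ _
  have h5 : 0 ≤ v2 (A ×ˢ B ×ˢ C) (e12 (tst B s F K b e p.1 p.2).1)
      (e13 (tst B s F K b e p.1 p.2).2.1) := v2_nonneg _ _ _
  fin_cases i <;> simp [fam] <;> positivity

/-- the price of one test -/
theorem pG_tst_le (he : 0 < e) (hP : ∀ y ∈ B, avg A (fun x => b x y ^ 2) ≤ P y)
    (hF1 : ∀ z ∈ C, avg B (fun y => F y z ^ 2) ≤ e) (k l : ℤ) :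
    pG (A ×ˢ B ×ˢ C) (tst B s F K b e k l) ≤
      (∏ i, fam A B C s F K b e P i (k, l)) ^ (1 / 6 : ℝ) := by
  have hP0 : ∀ y ∈ B, 0 ≤ P y := fun y hy => (avg_nonneg fun _ _ => sq_nonneg _).trans (hP y hy)
  rw [pG_six]
  have n12 := sq_nonneg (n2 (A ×ˢ B ×ˢ C) (e12 (tst B s F K b e k l).1))
  have n13 := sq_nonneg (n2 (A ×ˢ B ×ˢ C) (e13 (tst B s F K b e k l).2.1))
  have n23 := sq_nonneg (n2 (A ×ˢ B ×ˢ C) (e23 (tst B s F K b e k l).2.2))
  have nx := v2_nonneg (A ×ˢ B ×ˢ C) (e12 (tst B s F K b e k l).1)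
    (e13 (tst B s F K b e k l).2.1)
  have ny := v2_nonneg (A ×ˢ B ×ˢ C) (e12 (tst B s F K b e k l).1)
    (e23 (tst B s F K b e k l).2.2)
  have nz := v2_nonneg (A ×ˢ B ×ˢ C) (e13 (tst B s F K b e k l).2.1)
    (e23 (tst B s F K b e k l).2.2)
  refine Real.rpow_le_rpow (by positivity) ?_ (by norm_num)
  have hq := qk_nonneg (s := s) hP0 k
  have hg : 0 ≤ gl A B C s F K e l := gl_nonneg _
  have hb : 0 ≤ bl B C s F e l := bl_nonneg _
  have hqk : 0 ≤ qkl B C s F e P k l := qkl_nonneg hP0 _ _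
  have hw := wf_nonneg (k, l)
  have e0 : (∏ i, fam A B C s F K b e P i (k, l)) = 256 * e * wf (k, l) ^ 4 *
      (qk B s P k * gl A B C s F K e l * gl A B C s F K e l * bl B C s F e l *
        v2 (A ×ˢ B ×ˢ C) (e12 (tst B s F K b e k l).1) (e13 (tst B s F K b e k l).2.1) *
          qkl B C s F e P k l) := by
    simp [fam, Fin.prod_univ_succ]
    ring
  rw [e0]
  rcases le_total l k with h | h
  · refine (prod6 n12 n13 n23 nx ny nz (av12 hP k l) (av13 k l) (av23_a k l) le_rfl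
      (av_y hP k l) (av_z_l he k l)).trans ?_
    rw [← wf_ge h]
    have h3 : (0 : ℝ) < (16 : ℝ) ^ k := by positivity
    have h4 : (0 : ℝ) < (16 : ℝ) ^ l := by positivity
    have h5 : 0 ≤ ((16 : ℝ) ^ k)⁻¹ * (16 : ℝ) ^ l * e * (qk B s P k * gl A B C s F K e l *
      gl A B C s F K e l * bl B C s F e l *
        v2 (A ×ˢ B ×ˢ C) (e12 (tst B s F K b e k l).1) (e13 (tst B s F K b e k l).2.1) *
          qkl B C s F e P k l) := by positivity
    linarith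
  · refine (prod6 n12 n13 n23 nx ny nz (av12 hP k l) (av13 k l) (av23_b he hF1 k l) le_rfl
      (av_y hP k l) (av_z_k hF1 k l)).trans ?_
    rw [← wf_lt h]
    have h3 : (16 : ℝ) ^ k ≠ 0 := by positivity
    refine le_of_eq ?_
    field_simp
    ring

theorem sum_wf_left {f : ℤ → ℝ} (hf : ∀ k, 0 ≤ f k) (S T : Finset ℤ) {q : ℝ}
    (hq : ∑ k ∈ S, f k ≤ q) : ∑ p ∈ S ×ˢ T, f p.1 * wf p ≤ 4 * q := by
  rw [sum_product]
  have h1 : ∀ k ∈ S, ∑ l ∈ T, f (k, l).1 * wf (k, l) ≤ f k * 4 := by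
    intro k _
    simp only
    rw [← mul_sum]
    exact mul_le_mul_of_nonneg_left (sum_half_le T k) (hf k)
  refine (sum_le_sum h1).trans ?_
  rw [← sum_mul]
  linarith

theorem sum_wf_right {f : ℤ → ℝ} (hf : ∀ k, 0 ≤ f k) (S T : Finset ℤ) {q : ℝ}
    (hq : ∑ l ∈ T, f l ≤ q) : ∑ p ∈ S ×ˢ T, f p.2 * wf p ≤ 4 * q := by
  rw [sum_product, sum_comm]
  have h1 : ∀ l ∈ T, ∑ k ∈ S, f (k, l).2 * wf (k, l) ≤ f l * 4 := by
    intro l _
    simp only
    rw [← mul_sum]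
    refine mul_le_mul_of_nonneg_left ?_ (hf l)
    refine le_trans (le_of_eq ?_) (sum_half_le S l)
    refine sum_congr rfl fun k _ => ?_
    unfold wf
    simp only
    rw [show (k - l).natAbs = (l - k).natAbs by omega]
  refine (sum_le_sum h1).trans ?_
  rw [← sum_mul]
  linarith

/-- **The fixed row test in `W_g`, all heights.** -/
theorem core_G {δ R : ℝ} (hδ : 0 ≤ δ) (he : 0 < e) {G : ℤ × ℤ × ℤ → ℝ}
    (hU : UnifG δ A B C G) (hP : ∀ y ∈ B, avg A (fun x => b x y ^ 2) ≤ P y)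
    (hR : ∀ x ∈ A, avg B (fun y => b x y ^ 2) ≤ R)
    (hF1 : ∀ z ∈ C, avg B (fun y => F y z ^ 2) ≤ e)
    (hF2 : ∀ y ∈ B, avg C (fun z => F y z ^ 2) ≤ e) :
    |avg A fun x => avg B fun y => avg C fun z =>
        G (x, y, z) * (b x y * (s y * F y z) * K x z)| ≤
      δ * (65536 * e ^ 3 * (avg B fun y => s y ^ 2 * P y) ^ 2 * (avg B fun y => s y ^ 2) * R *
        (avg C fun z => avg A fun x => K x z ^ 2) ^ 3) ^ (1 / 6 : ℝ) := by
  have hP0 : ∀ y ∈ B, 0 ≤ P y := fun y hy => (avg_nonneg fun _ _ => sq_nonneg _).trans (hP y hy)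
  set S := lvs (fun y => s y ^ 2) B ×ˢ lvs (fun z => HH B s F z / e) C with hS
  set q := avg B fun y => s y ^ 2 * P y with hq
  set r := avg B fun y => s y ^ 2 with hr
  set g := avg C fun z => avg A fun x => K x z ^ 2 with hg
  have hq0 : 0 ≤ q := avg_nonneg fun y hy => mul_nonneg (sq_nonneg _) (hP0 y hy)
  have hr0 : 0 ≤ r := avg_nonneg fun _ _ => sq_nonneg _
  have hg0 : 0 ≤ g := avg_nonneg fun _ _ => avg_nonneg fun _ _ => sq_nonneg _
  rw [sum_tst he G]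
  refine (abs_sum_le_sum_abs _ _).trans ?_
  have h1 : ∀ p ∈ S, |avg (A ×ˢ B ×ˢ C) (fun q => G q * atm (tst B s F K b e p.1 p.2) q)| ≤
      δ * (∏ i, fam A B C s F K b e P i p) ^ (1 / 6 : ℝ) := fun p _ =>
    (hU _).trans (mul_le_mul_of_nonneg_left (pG_tst_le he hP hF1 p.1 p.2) hδ)
  refine (sum_le_sum h1).trans ?_
  rw [← mul_sum]
  refine mul_le_mul_of_nonneg_left ?_ hδ
  have hn : ∀ i, ∀ p ∈ S, 0 ≤ fam A B C s F K b e P i p := fun i p _ => fam_nonneg he hP0 i p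
  refine (sum_six S (fam A B C s F K b e P) hn).trans ?_
  refine Real.rpow_le_rpow (prod_nonneg fun i _ => sum_nonneg fun p hp => hn i p hp) ?_
    (by norm_num)
  have s0 : ∑ p ∈ S, fam A B C s F K b e P 0 p ≤ 256 * e * (4 * q) := by
    have h := sum_wf_left (f := qk B s P) (qk_nonneg hP0) (lvs (fun y => s y ^ 2) B)
      (lvs (fun z => HH B s F z / e) C) (sum_qk_le hP0)
    have h2 : ∑ p ∈ S, fam A B C s F K b e P 0 p = 256 * e * ∑ p ∈ S, qk B s P p.1 * wf p := by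
      rw [mul_sum]
      exact sum_congr rfl fun p _ => by simp [fam]
    rw [h2]
    exact mul_le_mul_of_nonneg_left h (by positivity)
  have s1 : ∑ p ∈ S, gl A B C s F K e p.2 * wf p ≤ 4 * g :=
    sum_wf_right (f := gl A B C s F K e) gl_nonneg _ _ sum_gl_le
  have s3 : ∑ p ∈ S, bl B C s F e p.2 * wf p ≤ 4 * (e * r) :=
    sum_wf_right (f := bl B C s F e) bl_nonneg _ _ (sum_bl_le hF2)
  have s4 := sum_av_x (A := A) (B := B) (C := C) (s := s) (F := F) (K := K) (e := e) hR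
  have s5 := sum_qkl_le (s := s) (F := F) (e := e) hP0 hF2
  have z0 : 0 ≤ ∑ p ∈ S, fam A B C s F K b e P 0 p := sum_nonneg fun p hp => hn 0 p hp
  have z1 : 0 ≤ ∑ p ∈ S, gl A B C s F K e p.2 * wf p :=
    sum_nonneg fun p _ => mul_nonneg (gl_nonneg _) (wf_nonneg _)
  have z3 : 0 ≤ ∑ p ∈ S, bl B C s F e p.2 * wf p :=
    sum_nonneg fun p _ => mul_nonneg (bl_nonneg _) (wf_nonneg _)
  have z4 : 0 ≤ ∑ p ∈ S, v2 (A ×ˢ B ×ˢ C) (e12 (tst B s F K b e p.1 p.2).1)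
      (e13 (tst B s F K b e p.1 p.2).2.1) := sum_nonneg fun p _ => v2_nonneg _ _ _
  have z5 : 0 ≤ ∑ p ∈ S, qkl B C s F e P p.1 p.2 :=
    sum_nonneg fun p _ => qkl_nonneg hP0 _ _
  have e0 : (∏ i, ∑ p ∈ S, fam A B C s F K b e P i p) =
      (∑ p ∈ S, fam A B C s F K b e P 0 p) * (∑ p ∈ S, gl A B C s F K e p.2 * wf p) *
        (∑ p ∈ S, gl A B C s F K e p.2 * wf p) * ((∑ p ∈ S, bl B C s F e p.2 * wf p) *
        (∑ p ∈ S, v2 (A ×ˢ B ×ˢ C) (e12 (tst B s F K b e p.1 p.2).1)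
          (e13 (tst B s F K b e p.1 p.2).2.1)) * ∑ p ∈ S, qkl B C s F e P p.1 p.2) := by
    simp only [Fin.prod_univ_succ, fam]
    simp
    ring
  rw [e0]
  refine (prod6 z0 z1 z1 z3 z4 z5 s0 s1 s1 s3 s4 s5).trans (le_of_eq ?_)
  ring

/-- self improvement -/
theorem self_six {g δ M : ℝ} (hg : 0 ≤ g) (hM : 0 ≤ M)
    (h : g ≤ δ * (M * g ^ 3) ^ (1 / 6 : ℝ)) : g ≤ δ ^ 2 * M ^ (1 / 3 : ℝ) := by
  rcases hg.eq_or_lt with h0 | h0
  · rw [← h0]; positivity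
  have e1 : (M * g ^ 3) ^ (1 / 6 : ℝ) = M ^ (1 / 6 : ℝ) * √g := by
    rw [Real.mul_rpow hM (by positivity)]
    congr 1
    rw [← Real.rpow_natCast, ← Real.rpow_mul hg, Real.sqrt_eq_rpow]
    norm_num
  rw [e1] at h
  have hs : 0 < √g := Real.sqrt_pos.2 h0
  have e2 : √g * √g = g := Real.mul_self_sqrt hg
  have h1 : √g ≤ δ * M ^ (1 / 6 : ℝ) := by
    have h2 : √g * √g ≤ (δ * M ^ (1 / 6 : ℝ)) * √g := by
      rw [e2]
      calc g ≤ δ * (M ^ (1 / 6 : ℝ) * √g) := h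
        _ = _ := by ring
    exact le_of_mul_le_mul_right h2 hs
  have e3 : (M ^ (1 / 6 : ℝ)) ^ 2 = M ^ (1 / 3 : ℝ) := by
    rw [← Real.rpow_natCast, ← Real.rpow_mul hM]
    norm_num
  calc g = √g ^ 2 := by rw [sq, e2]
    _ ≤ (δ * M ^ (1 / 6 : ℝ)) ^ 2 := pow_le_pow_left₀ hs.le h1 2
    _ = δ ^ 2 * M ^ (1 / 3 : ℝ) := by rw [mul_pow, e3]

theorem third_const {e X : ℝ} (he : 0 ≤ e) (hX : 0 ≤ X) :
    (65536 * e ^ 3 * X) ^ (1 / 3 : ℝ) ≤ 41 * e * X ^ (1 / 3 : ℝ) := by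
  rw [Real.mul_rpow (by positivity) hX]
  refine mul_le_mul_of_nonneg_right ?_ (by positivity)
  have h1 : (65536 * e ^ 3 : ℝ) ≤ (41 * e) ^ 3 := by
    rw [mul_pow]
    have : 0 ≤ e ^ 3 := by positivity
    nlinarith
  calc (65536 * e ^ 3) ^ (1 / 3 : ℝ) ≤ ((41 * e) ^ 3) ^ (1 / 3 : ℝ) :=
        Real.rpow_le_rpow (by positivity) h1 (by norm_num)
    _ = 41 * e := by
        rw [← Real.rpow_natCast, ← Real.rpow_mul (by positivity)]
        norm_num

section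

open Vale.Agent.P141.H769
open Vale.Agent.P141.H834 (LineB)

variable {δ R S : ℝ} {G : ℤ × ℤ × ℤ → ℝ}

/-- **The S4 lemma in `W_g`, row by row**: every gauge, every height. -/
theorem row_G (hδ : 0 ≤ δ) (he : 0 < e) (hU : UnifG δ A B C G) (hL : LineB e A B C G)
    (a : ℤ → ℤ → ℝ) (hR : ∀ x ∈ A, avg B (fun y => a x y ^ 2) ≤ R) {c : ℤ} (hc : c ∈ A) :
    (avg C fun z => avg A fun x => g2 B (sl a G z) x c ^ 2) ≤
      41 * δ ^ 2 * e * ((avg B fun y => a c y ^ 2 * avg A fun x => a x y ^ 2) ^ 2 *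
        (avg B fun y => a c y ^ 2) * R) ^ (1 / 3 : ℝ) := by
  set q := avg B fun y => a c y ^ 2 * avg A fun x => a x y ^ 2 with hq
  set r := avg B fun y => a c y ^ 2 with hr
  set g := avg C fun z => avg A fun x => g2 B (sl a G z) x c ^ 2 with hg
  have hr0 : 0 ≤ r := avg_nonneg fun _ _ => sq_nonneg _
  have hR0 : 0 ≤ R := (avg_nonneg fun _ _ => sq_nonneg _).trans (hR c hc)
  have hq0 : 0 ≤ q := avg_nonneg fun _ _ => mul_nonneg (sq_nonneg _)
    (avg_nonneg fun _ _ => sq_nonneg _)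
  have hg0 : 0 ≤ g := avg_nonneg fun _ _ => avg_nonneg fun _ _ => sq_nonneg _
  have h := core_G (s := fun y => a c y) (F := fun y z => G (c, y, z))
    (K := fun x z => g2 B (sl a G z) x c) (b := a) (P := fun y => avg A fun x => a x y ^ 2)
    (R := R) hδ he hU (fun y _ => le_rfl) hR (fun z hz => hL.l2 c hc z hz)
    (fun y hy => hL.l3 c hc y hy)
  have e1 : (avg A fun x => avg B fun y => avg C fun z =>
      G (x, y, z) * (a x y * (a c y * G (c, y, z)) * g2 B (sl a G z) x c)) = g := by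
    have e2 : ∀ x, (avg B fun y => avg C fun z =>
        G (x, y, z) * (a x y * (a c y * G (c, y, z)) * g2 B (sl a G z) x c)) =
        avg C fun z => g2 B (sl a G z) x c ^ 2 := by
      intro x
      rw [avg_comm]
      refine avg_congr fun z _ => ?_
      have e3 : (avg B fun y =>
          G (x, y, z) * (a x y * (a c y * G (c, y, z)) * g2 B (sl a G z) x c)) =
          avg B fun y => (sl a G z x y * sl a G z c y) * g2 B (sl a G z) x c :=
        avg_congr fun y _ => by unfold sl; ring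
      rw [e3, avg_mul_right, sq]
      rfl
    rw [avg_congr fun x _ => e2 x, avg_comm]
  rw [e1] at h
  have h1 : g ≤ δ * ((65536 * e ^ 3 * (q ^ 2 * r * R)) * g ^ 3) ^ (1 / 6 : ℝ) := by
    refine (le_abs_self g).trans (h.trans (le_of_eq ?_))
    congr 2
    ring
  have h2 := self_six hg0 (by positivity) h1
  refine h2.trans ?_
  calc δ ^ 2 * (65536 * e ^ 3 * (q ^ 2 * r * R)) ^ (1 / 3 : ℝ) ≤
      δ ^ 2 * (41 * e * (q ^ 2 * r * R) ^ (1 / 3 : ℝ)) :=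
        mul_le_mul_of_nonneg_left (third_const he.le (by positivity)) (sq_nonneg _)
    _ = _ := by ring

/-- the fourth moment as an average over the rows -/
theorem mo4_rows (a : ℤ → ℤ → ℝ) :
    mo4 A B C a G = avg A fun c => avg C fun z => avg A fun x => g2 B (sl a G z) x c ^ 2 := by
  unfold mo4
  rw [avg_comm A C]
  refine avg_congr fun z _ => ?_
  rw [avg_comm]

/-- **The S4 lemma in `W_g`**, sum over the rows. -/
theorem mo4_G_row (hδ : 0 ≤ δ) (he : 0 < e) (hU : UnifG δ A B C G) (hL : LineB e A B C G)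
    (a : ℤ → ℤ → ℝ) (hR : ∀ x ∈ A, avg B (fun y => a x y ^ 2) ≤ R) :
    mo4 A B C a G ≤ 41 * δ ^ 2 * e * avg A fun c =>
      ((avg B fun y => a c y ^ 2 * avg A fun x => a x y ^ 2) ^ 2 *
        (avg B fun y => a c y ^ 2) * R) ^ (1 / 3 : ℝ) := by
  rw [mo4_rows, ← avg_mul_left]
  exact avg_mono fun c hc => row_G hδ he hU hL a hR hc

/-- **The S4 lemma in `W_g`**: rows at most `R`, columns at most `S`, every height. -/
theorem mo4_G (hδ : 0 ≤ δ) (he : 0 < e) (hU : UnifG δ A B C G) (hL : LineB e A B C G)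
    (a : ℤ → ℤ → ℝ) (hR0 : 0 ≤ R)
    (hR : ∀ x ∈ A, avg B (fun y => a x y ^ 2) ≤ R)
    (hS : ∀ y ∈ B, avg A (fun x => a x y ^ 2) ≤ S) :
    mo4 A B C a G ≤ 41 * δ ^ 2 * e * ((avg A fun x => avg B fun y => a x y ^ 2) *
      (R * S ^ 2) ^ (1 / 3 : ℝ)) := by
  refine (mo4_G_row hδ he hU hL a hR).trans ?_
  refine mul_le_mul_of_nonneg_left ?_ (by positivity)
  rw [← avg_mul_right]
  refine avg_mono fun c _ => ?_
  set r := avg B fun y => a c y ^ 2 with hr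
  have hr0 : 0 ≤ r := avg_nonneg fun _ _ => sq_nonneg _
  have hq0 : 0 ≤ avg B fun y => a c y ^ 2 * avg A fun x => a x y ^ 2 :=
    avg_nonneg fun _ _ => mul_nonneg (sq_nonneg _) (avg_nonneg fun _ _ => sq_nonneg _)
  have hq : (avg B fun y => a c y ^ 2 * avg A fun x => a x y ^ 2) ≤ r * S := by
    rw [hr, ← avg_mul_right]
    exact avg_mono fun y hy => mul_le_mul_of_nonneg_left (hS y hy) (sq_nonneg _)
  calc _ ≤ ((r * S) ^ 2 * r * R) ^ (1 / 3 : ℝ) := by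
        refine Real.rpow_le_rpow (by positivity) ?_ (by norm_num)
        gcongr
    _ = (r ^ 3 * (R * S ^ 2)) ^ (1 / 3 : ℝ) := by congr 1; ring
    _ = r * (R * S ^ 2) ^ (1 / 3 : ℝ) := by
        rw [Real.mul_rpow (by positivity) (by positivity)]
        congr 1
        rw [← Real.rpow_natCast, ← Real.rpow_mul hr0]
        norm_num

end

end

end Vale.Agent.P141.H622
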